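import Vale.Agent.P202.Perf.Base

/-!
# The weight is the order at the maximal ideal of each level
-/

namespace Vale.Agent.P202.Perf.Base

open MvPowerSeries

set_option linter.unusedSectionVars false

variable {R : Type*} [CommRing R] {σ : Type*}

theorem monomial_mem_pow_span_X (e : σ →₀ ℕ) :
    monomial e (1 : R) ∈ Ideal.span (Set.range (X : σ → MvPowerSeries σ R)) ^ e.degree := by
  induction e using Finsupp.induction with
  | zero => rw [map_zero, pow_zero, Ideal.one_eq_top]; trivial
  | single_add i c e _ _ ih =>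
    have h := monomial_mul_monomial (Finsupp.single i c) e (1 : R) 1
    rw [one_mul] at h
    rw [← h, ← X_pow_eq, map_add, Finsupp.degree_single, pow_add]
    exact Ideal.mul_mem_mul (Ideal.pow_mem_pow (Ideal.subset_span (Set.mem_range_self i)) c) ih

theorem exists_le_degree_eq {s : ℕ} (a : σ →₀ ℕ) (h : s ≤ a.degree) :
    ∃ e ≤ a, e.degree = s := by
  induction s with
  | zero => exact ⟨0, zero_le, map_zero _⟩
  | succ s ih =>
    obtain ⟨e, hea, he⟩ := ih (by omega)
    obtain ⟨i, hi⟩ : ∃ i, e i < a i := by
      by_contra hne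
      push Not at hne
      have : a = e := le_antisymm hne hea
      rw [this] at h
      omega
    classical
    refine ⟨e + Finsupp.single i 1, fun j => ?_, by rw [map_add, Finsupp.degree_single, he]⟩
    rw [Finsupp.add_apply, Finsupp.single_apply]
    have := hea j
    split_ifs with hj
    · subst hj; omega
    · omega

/-- A series without terms below degree `s` lies in the `s`-th power of the ideal of variables. -/
theorem mem_pow_span_X [Finite σ] {f : MvPowerSeries σ R} {s : ℕ}
    (h : ∀ a : σ →₀ ℕ, a.degree < s → coeff a f = 0) :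
    f ∈ Ideal.span (Set.range (X : σ → MvPowerSeries σ R)) ^ s := by
  classical
  have hfin : {e : σ →₀ ℕ | e.degree = s}.Finite := by
    refine (Finite.of_injective (fun e : {e : σ →₀ ℕ | e.degree = s} => fun i : σ =>
      (⟨e.1 i, Nat.lt_succ_of_le ((Finsupp.le_degree i e.1).trans e.2.le)⟩ : Fin (s + 1))) ?_)
    intro e e' hee
    ext i
    exact congrArg Fin.val (congrFun hee i)
  choose E hEle hEdeg using fun a : {a : σ →₀ ℕ // s ≤ a.degree} => exists_le_degree_eq a.1 a.2
  let g : (σ →₀ ℕ) → MvPowerSeries σ R := fun e b =>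
    if hb : s ≤ (e + b).degree then (if E ⟨e + b, hb⟩ = e then coeff (e + b) f else 0) else 0
  have hf : f = ∑ e ∈ hfin.toFinset, monomial e (1 : R) * g e := by
    refine MvPowerSeries.ext fun a => ?_
    rw [map_sum]
    simp only [coeff_monomial_mul, one_mul]
    by_cases ha : s ≤ a.degree
    · rw [Finset.sum_eq_single (E ⟨a, ha⟩)]
      · rw [if_pos (hEle ⟨a, ha⟩)]
        have hadd : E ⟨a, ha⟩ + (a - E ⟨a, ha⟩) = a := add_tsub_cancel_of_le (hEle ⟨a, ha⟩)
        show _ = g _ _
        simp only [g, hadd, dif_pos ha, if_pos]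
      · intro e _ hne
        split_ifs with hle
        · have hadd : e + (a - e) = a := add_tsub_cancel_of_le hle
          show g _ _ = 0
          simp only [g, hadd, dif_pos ha]
          exact if_neg (Ne.symm hne)
        · rfl
      · intro hnot
        exact absurd (hfin.mem_toFinset.2 (hEdeg _)) hnot
    · rw [h a (not_le.1 ha), Finset.sum_eq_zero fun e _ => ?_]
      split_ifs with hle
      · have hadd : e + (a - e) = a := add_tsub_cancel_of_le hle
        show g _ _ = 0
        simp only [g, hadd, dif_neg ha]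
      · rfl
  rw [hf]
  exact sum_mem fun e he => Ideal.mul_mem_right _ _
    ((hfin.mem_toFinset.1 he : e.degree = s) ▸ monomial_mem_pow_span_X e)

variable {p : ℕ} [hp : Fact (Nat.Prime p)] {k : Type*} [Field k] [CharP k p] [PerfectRing k p]
variable [Finite σ]

theorem maximalIdeal_eq_span (n : ℕ) :
    IsLocalRing.maximalIdeal (An p k σ n) =
      Ideal.span {C (varpi p k n)} ⊔ Ideal.span (Set.range X) := by
  refine le_antisymm (fun f hf => ?_) (sup_le ?_ ?_)
  · rw [IsLocalRing.mem_maximalIdeal, mem_nonunits_iff, isUnit_iff_constantCoeff,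
      ← mem_nonunits_iff, ← IsLocalRing.mem_maximalIdeal, maximalIdeal_eq,
      Ideal.mem_span_singleton] at hf
    obtain ⟨c, hc⟩ := hf
    have hX : f - C (constantCoeff f) ∈ Ideal.span (Set.range (X : σ → An p k σ n)) := by
      rw [← pow_one (Ideal.span _)]
      refine mem_pow_span_X fun a ha => ?_
      have : a = 0 := (Finsupp.degree_eq_zero_iff a).1 (by omega)
      rw [this, map_sub, coeff_zero_C, coeff_zero_eq_constantCoeff_apply, sub_self]
    refine Submodule.mem_sup.2 ⟨C (constantCoeff f), ?_, _, hX, add_sub_cancel _ _⟩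
    rw [hc, map_mul]
    exact Ideal.mul_mem_right _ _ (Ideal.mem_span_singleton_self _)
  · rw [Ideal.span_singleton_le_iff_mem, IsLocalRing.mem_maximalIdeal, mem_nonunits_iff,
      isUnit_iff_constantCoeff, constantCoeff_C]
    exact (varpi_prime n).not_isUnit
  · rw [Ideal.span_le]
    rintro _ ⟨i, rfl⟩
    rw [SetLike.mem_coe, IsLocalRing.mem_maximalIdeal, mem_nonunits_iff, isUnit_iff_constantCoeff,
      constantCoeff_X]
    exact not_isUnit_zero

theorem one_le_ord {n : ℕ} {f : An p k σ n} (hf : f ∈ IsLocalRing.maximalIdeal (An p k σ n)) :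
    1 ≤ ord n f := by
  rw [← Nat.cast_one, le_ord_iff]
  intro a
  rw [pow_one]
  rcases Nat.eq_zero_or_pos a.degree with h | h
  · rw [h, pow_zero, one_mul, (Finsupp.degree_eq_zero_iff a).1 h, ← Ideal.mem_span_singleton,
      ← maximalIdeal_eq, IsLocalRing.mem_maximalIdeal, mem_nonunits_iff,
      coeff_zero_eq_constantCoeff_apply, ← isUnit_iff_constantCoeff]
    exact (IsLocalRing.mem_maximalIdeal _).1 hf
  · exact dvd_mul_of_dvd_left (dvd_pow_self _ h.ne') _

/-- Weight at least `s` is membership in the `s`-th power of the maximal ideal. -/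
theorem le_ord_iff_mem_pow (n : ℕ) (f : An p k σ n) (s : ℕ) :
    (s : ℕ∞) ≤ ord n f ↔ f ∈ IsLocalRing.maximalIdeal (An p k σ n) ^ s := by
  constructor
  · intro h
    rw [le_ord_iff] at h
    classical
    have hlow : ∀ a : σ →₀ ℕ, a.degree < s →
        varpi p k n ^ (s - a.degree) ∣ coeff a f := by
      intro a ha
      have := h a
      rw [← Nat.add_sub_cancel' ha.le, pow_add] at this
      exact (mul_dvd_mul_iff_left (pow_ne_zero _ (varpi_ne_zero n))).1 this
    have hfin : {e : σ →₀ ℕ | e.degree < s}.Finite := by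
      refine (Finite.of_injective (β := σ → Fin s) (fun e : {e : σ →₀ ℕ | e.degree < s} => fun i : σ =>
        (⟨e.1 i, (Finsupp.le_degree i e.1).trans_lt e.2⟩ : Fin s)) ?_)
      intro e e' hee
      ext i
      exact congrArg Fin.val (congrFun hee i)
    set g := ∑ e ∈ hfin.toFinset, monomial e (coeff e f) with hg
    have htail : f - g ∈ Ideal.span (Set.range (X : σ → An p k σ n)) ^ s := by
      refine mem_pow_span_X fun a ha => ?_
      rw [map_sub, hg, map_sum, Finset.sum_eq_single a, coeff_monomial_same, sub_self]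
      · exact fun e _ hne => coeff_monomial_ne (Ne.symm hne) _
      · exact fun hnot => absurd (hfin.mem_toFinset.2 ha) hnot
    rw [← sub_add_cancel f g]
    refine add_mem (Ideal.pow_right_mono ((maximalIdeal_eq_span (p := p) (k := k) (σ := σ) n).symm ▸
      le_sup_right) s htail) (sum_mem fun e he => ?_)
    have he' : e.degree < s := hfin.mem_toFinset.1 he
    obtain ⟨c, hc⟩ := hlow e he'
    have hm := monomial_mul_monomial (R := Wn p k n) (0 : σ →₀ ℕ) e (coeff e f) 1
    rw [zero_add, mul_one, monomial_zero_eq_C_apply] at hm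
    rw [← hm, hc, map_mul, map_pow, mul_comm (C (varpi p k n) ^ _), mul_assoc]
    refine Ideal.mul_mem_left _ _ ?_
    have hs : s - e.degree + e.degree = s := Nat.sub_add_cancel he'.le
    rw [show IsLocalRing.maximalIdeal (An p k σ n) ^ s = IsLocalRing.maximalIdeal (An p k σ n) ^
      (s - e.degree) * IsLocalRing.maximalIdeal (An p k σ n) ^ e.degree by rw [← pow_add, hs]]
    refine Ideal.mul_mem_mul (Ideal.pow_mem_pow ?_ _)
      (Ideal.pow_right_mono ((maximalIdeal_eq_span (p := p) (k := k) (σ := σ) n).symm ▸ le_sup_right)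
        _ (monomial_mem_pow_span_X e))
    exact (maximalIdeal_eq_span (p := p) (k := k) (σ := σ) n).symm ▸
      Ideal.mem_sup_left (Ideal.mem_span_singleton_self _)
  · intro h
    induction s generalizing f with
    | zero => exact zero_le
    | succ s ih =>
      rw [pow_succ] at h
      refine Submodule.mul_induction_on h (fun a ha b hb => ?_) (fun a b ha hb => ?_)
      · rw [ord_mul, Nat.cast_succ]
        exact add_le_add (ih a ha) (one_le_ord hb)
      · exact (le_min ha hb).trans (min_le_ord_add n a b)

end Vale.Agent.P202.Perf.Base
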