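import Vale.Agent.P202.Perf.Weight

/-!
# The monomial retraction, and definiteness of the weight
-/

namespace Vale.Agent.P202.Perf.Base

open MvPowerSeries

set_option linter.unusedSectionVars false

variable {p : ℕ} [hp : Fact (Nat.Prime p)] {k : Type*} [Field k] [CharP k p] [PerfectRing k p]
variable {σ : Type*} [Finite σ]

variable (p k) in
/-- The map to a higher level as an algebra map. -/
noncomputable def transA {n m : ℕ} (h : n ≤ m) : Wn p k n →ₐ[WittVector p k] Wn p k m :=
  { trans p k h with commutes' := fun x => trans_of h x }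

theorem transA_apply {n m : ℕ} (h : n ≤ m) (x : Wn p k n) : transA p k h x = trans p k h x := rfl

variable (p k) in
/-- The component of the exponents divisible by `p ^ (m - n)`. -/
noncomputable def retW (n m : ℕ) : Wn p k m →ₗ[WittVector p k] Wn p k n :=
  (AdjoinRoot.powerBasis' (rootPoly_monic (p := p) (k := k) m)).basis.constr (WittVector p k)
    fun i => if p ^ (m - n) ∣ (i : ℕ) then varpi p k n ^ ((i : ℕ) / p ^ (m - n)) else 0

theorem retW_varpi_pow {n m : ℕ} (h : n ≤ m) (i : ℕ) :
    retW p k n m (varpi p k m ^ i)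
      = if p ^ (m - n) ∣ i then varpi p k n ^ (i / p ^ (m - n)) else 0 := by
  induction i using Nat.strong_induction_on with
  | _ i ih =>
    have hP : 0 < p ^ (m - n) := pow_pos hp.out.pos _
    rcases lt_or_ge i (p ^ m) with hi | hi
    · have hi' : i < (AdjoinRoot.powerBasis' (rootPoly_monic (p := p) (k := k) m)).dim := by
        rwa [AdjoinRoot.powerBasis'_dim, rootPoly_natDegree]
      have hb := (AdjoinRoot.powerBasis' (rootPoly_monic (p := p) (k := k) m)).basis_eq_pow ⟨i, hi'⟩
      rw [AdjoinRoot.powerBasis'_gen] at hb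
      show retW p k n m (AdjoinRoot.root _ ^ i) = _
      rw [← hb, retW, Module.Basis.constr_basis]
    · obtain ⟨j, rfl⟩ := Nat.exists_eq_add_of_le hi
      have hq : p ^ (m - n) * p ^ n = p ^ m := by rw [← pow_add, Nat.sub_add_cancel h]
      rw [pow_add, varpi_pow, ← nsmul_eq_mul, map_nsmul, nsmul_eq_mul,
        ih j (by have := pow_pos hp.out.pos m; omega)]
      have hd : p ^ (m - n) ∣ p ^ m + j ↔ p ^ (m - n) ∣ j :=
        Nat.dvd_add_right ⟨p ^ n, hq.symm⟩
      by_cases hj : p ^ (m - n) ∣ j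
      · rw [if_pos hj, if_pos (hd.2 hj), ← hq, Nat.mul_add_div hP, pow_add, varpi_pow]
      · rw [if_neg hj, if_neg (mt hd.1 hj), mul_zero]

/-- The retraction is semilinear. -/
theorem retW_trans_mul {n m : ℕ} (h : n ≤ m) (x : Wn p k n) (y : Wn p k m) :
    retW p k n m (trans p k h x * y) = x * retW p k n m y := by
  have hP : 0 < p ^ (m - n) := pow_pos hp.out.pos _
  have key : ((LinearMap.mul (WittVector p k) (Wn p k m)).compl₁₂ (transA p k h).toLinearMap
      LinearMap.id).compr₂ (retW p k n m)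
      = (LinearMap.mul (WittVector p k) (Wn p k n)).compl₁₂ LinearMap.id (retW p k n m) := by
    refine (AdjoinRoot.powerBasis' (rootPoly_monic (p := p) (k := k) n)).basis.ext fun i => ?_
    refine (AdjoinRoot.powerBasis' (rootPoly_monic (p := p) (k := k) m)).basis.ext fun j => ?_
    simp only [LinearMap.compr₂_apply, LinearMap.compl₁₂_apply, LinearMap.id_coe, id_eq,
      LinearMap.mul_apply', AlgHom.toLinearMap_apply, transA_apply, PowerBasis.basis_eq_pow,
      AdjoinRoot.powerBasis'_gen]
    rw [map_pow, trans_varpi, ← pow_mul, ← pow_add, retW_varpi_pow h, retW_varpi_pow h]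
    by_cases hj : p ^ (m - n) ∣ (j : ℕ)
    · rw [if_pos hj, if_pos ((Nat.dvd_add_right (dvd_mul_right _ _)).2 hj),
        Nat.mul_add_div hP, pow_add]
    · rw [if_neg hj, if_neg (fun hd => hj ((Nat.dvd_add_right (dvd_mul_right _ _)).1 hd)), mul_zero]
  exact LinearMap.congr_fun (LinearMap.congr_fun key x) y

theorem retW_trans {n m : ℕ} (h : n ≤ m) (x : Wn p k n) : retW p k n m (trans p k h x) = x := by
  have h1 := retW_trans_mul h x (varpi p k m ^ 0)
  rwa [retW_varpi_pow h, if_pos (dvd_zero _), Nat.zero_div, pow_zero, pow_zero, mul_one, mul_one]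
    at h1

variable (p k σ) in
/-- The retraction of level `m` onto level `n`. -/
noncomputable def ret (n m : ℕ) : An p k σ m →+ An p k σ n where
  toFun f := fun a => retW p k n m (coeff (p ^ (m - n) • a) f)
  map_zero' := MvPowerSeries.ext fun a => by
    show retW p k n m (coeff (p ^ (m - n) • a) 0) = 0
    rw [map_zero, map_zero]
  map_add' f g := MvPowerSeries.ext fun a => by
    show retW p k n m (coeff (p ^ (m - n) • a) (f + g)) = _
    rw [map_add, map_add]
    rfl

theorem coeff_ret {n m : ℕ} (f : An p k σ m) (a : σ →₀ ℕ) :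
    coeff a (ret p k σ n m f) = retW p k n m (coeff (p ^ (m - n) • a) f) := rfl

theorem ret_tr {n m : ℕ} (h : n ≤ m) (f : An p k σ n) : ret p k σ n m (tr p k σ h f) = f :=
  MvPowerSeries.ext fun a => by rw [coeff_ret, coeff_tr_smul, retW_trans]

theorem ret_p_pow_mul {n m : ℕ} (j : ℕ) (f : An p k σ m) :
    ret p k σ n m ((p : An p k σ m) ^ j * f) = (p : An p k σ n) ^ j * ret p k σ n m f := by
  rw [← Nat.cast_pow, ← Nat.cast_pow, ← nsmul_eq_mul, map_nsmul, nsmul_eq_mul]

/-- The retraction does not lower the weight. -/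
theorem le_ord_ret {n m : ℕ} (h : n ≤ m) {f : An p k σ m} {s : ℕ}
    (hf : ((p ^ (m - n) * s : ℕ) : ℕ∞) ≤ ord m f) : (s : ℕ∞) ≤ ord n (ret p k σ n m f) := by
  rw [le_ord_iff] at hf ⊢
  intro a
  obtain ⟨y, hy⟩ := hf (p ^ (m - n) • a)
  rw [map_nsmul, smul_eq_mul, pow_mul, pow_mul, ← trans_varpi h, ← map_pow, ← map_pow] at hy
  refine ⟨retW p k n m y, ?_⟩
  rw [coeff_ret, ← retW_trans_mul h, ← retW_trans_mul h, hy]

/-- Divisibility by `p ^ j` descends. -/
theorem dvd_of_dvd_incl {n j : ℕ} {f : An p k σ n}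
    (hd : (p : Acol p k σ) ^ j ∣ incl p k σ n f) : (p : An p k σ n) ^ j ∣ f := by
  obtain ⟨y, hy⟩ := hd
  obtain ⟨m, g, rfl⟩ := exists_incl y
  have heq : incl p k σ (max n m) (tr p k σ (le_max_left n m) f)
      = incl p k σ (max n m) ((p : An p k σ _) ^ j * tr p k σ (le_max_right n m) g) := by
    rw [incl_tr, map_mul, map_pow, map_natCast, incl_tr, hy]
  have h := congrArg (ret p k σ n (max n m)) (incl_injective _ heq)
  rw [ret_tr, ret_p_pow_mul] at h
  exact ⟨_, h⟩

/-- The weight is definite. -/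
theorem weight_eq_zero {x : Aoo p k σ} (hx : weight p k σ x = 0) : x = 0 := by
  refine IsHausdorff.haus' (I := Ideal.span {(p : Aoo p k σ)}) x fun j => ?_
  rw [SModEq.zero, smul_eq_mul, Ideal.mul_top, Ideal.span_singleton_pow, Ideal.mem_span_singleton]
  obtain ⟨a, ha⟩ := exists_col_sub x j
  obtain ⟨n, f, rfl⟩ := exists_incl a
  suffices hf : (p : An p k σ n) ^ j ∣ f by
    obtain ⟨g, rfl⟩ := hf
    have h1 : (p : Aoo p k σ) ^ j ∣ algebraMap (Acol p k σ) (Aoo p k σ)
        (incl p k σ n ((p : An p k σ n) ^ j * g)) := by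
      rw [map_mul, map_pow, map_natCast, map_mul, map_pow, map_natCast]
      exact dvd_mul_right _ _
    simpa using dvd_add ha h1
  rw [← map_natCast (C (σ := σ) (R := Wn p k n)), ← map_pow, C_dvd_iff]
  intro a
  -- compare with an approximation modulo a high power of `p`
  set i := a.degree + j with hi
  obtain ⟨b, hb⟩ := exists_col_sub x i
  obtain ⟨m, g, rfl⟩ := exists_incl b
  set M := max n m
  have hw : wt M (tr p k σ (le_max_right n m) g) ≤ rho p ^ i := by
    have h1 := max_weight_eq hb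
    rw [hx, max_eq_right zero_le] at h1
    rw [← wcol_incl, incl_tr]
    exact (le_max_left _ _).trans h1.ge
  have hd : (p : Acol p k σ) ^ j ∣ incl p k σ n f - incl p k σ m g := by
    refine dvd_of_dvd_algebraMap ?_
    rw [map_sub, show algebraMap (Acol p k σ) (Aoo p k σ) (incl p k σ n f) - algebraMap _ _
        (incl p k σ m g) = (x - algebraMap _ _ (incl p k σ m g))
          - (x - algebraMap _ _ (incl p k σ n f)) by ring]
    exact dvd_sub ((pow_dvd_pow _ (by omega)).trans hb) ha
  have hord : ((p ^ (M - n) * (p ^ n * i) : ℕ) : ℕ∞) ≤ ord M (tr p k σ (le_max_right n m) g) := by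
    rw [← mul_assoc, ← pow_add, Nat.sub_add_cancel (le_max_left n m)]
    by_contra hlt
    rw [not_le] at hlt
    obtain ⟨e, he⟩ := ENat.ne_top_iff_exists.1 hlt.ne_top
    rw [← he, Nat.cast_lt] at hlt
    rw [wt, ← he, ← rhoN_pow M, ← pow_mul] at hw
    exact (pow_lt_pow_right_of_lt_one₀ (NNReal.rpow_pos rho_pos)
      (Real.rpow_lt_one (by exact_mod_cast (rho_pos (p := p)).le) (by exact_mod_cast rho_lt_one)
        (inv_pos.2 (by exact_mod_cast pow_pos hp.out.pos M))) hlt).not_ge hw
  have hret := (le_ord_iff n _ _).1 (le_ord_ret (le_max_left n m) hord) a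
  have hdiff : (p : An p k σ n) ^ j ∣ f - ret p k σ n M (tr p k σ (le_max_right n m) g) := by
    have h2 : (p : Acol p k σ) ^ j ∣ incl p k σ M
        (tr p k σ (le_max_left n m) f - tr p k σ (le_max_right n m) g) := by
      rwa [map_sub, incl_tr, incl_tr]
    obtain ⟨y, hy⟩ := dvd_of_dvd_incl h2
    refine ⟨ret p k σ n M y, ?_⟩
    rw [← ret_p_pow_mul, ← hy, map_sub, ret_tr]
  rw [← map_natCast (C (σ := σ) (R := Wn p k n)), ← map_pow, C_dvd_iff] at hdiff
  have hc : (p : Wn p k n) ^ j ∣ coeff a (ret p k σ n M (tr p k σ (le_max_right n m) g)) := by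
    rw [← varpi_pow, ← pow_mul]
    have hle : a.degree + p ^ n * j ≤ p ^ n * i := by
      rw [hi, mul_add]
      exact Nat.add_le_add_right (Nat.le_mul_of_pos_left _ (pow_pos hp.out.pos n)) _
    have h3 := (pow_dvd_pow _ hle).trans hret
    rw [pow_add] at h3
    exact (mul_dvd_mul_iff_left (pow_ne_zero _ (varpi_ne_zero n))).1 h3
  have h4 := hdiff a
  rw [map_sub] at h4
  simpa using dvd_add h4 hc

theorem weight_eq_zero_iff {x : Aoo p k σ} : weight p k σ x = 0 ↔ x = 0 :=
  ⟨weight_eq_zero, fun h => h ▸ map_zero _⟩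

instance instIsDomainAoo : IsDomain (Aoo p k σ) := by
  have : Nontrivial (Aoo p k σ) := ⟨⟨0, 1, fun h => by
    simpa using congrArg (weight p k σ) h⟩⟩
  have : NoZeroDivisors (Aoo p k σ) := ⟨fun {x y} h => by
    have := congrArg (weight p k σ) h
    rw [map_mul, map_zero, mul_eq_zero] at this
    exact this.imp weight_eq_zero weight_eq_zero⟩
  exact NoZeroDivisors.to_isDomain _

end Vale.Agent.P202.Perf.Base
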