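import Vale.Agent.P202.Perf.Approx

/-!
# Slices of a valuation and the tilt

For a valuation `v ≤ 1` on `O`, the slice of levels `(t, s]` is matched with the same slice of the
tilt through untilting when `|p| s ≤ t`, and `x ↦ x ^ p` maps it onto the slice `(t ^ p, s ^ p]`
when `|p| s ^ p ≤ t ^ p`.
-/

namespace Vale.Agent.P202.Perf

variable {O : Type*} [CommRing O] {p : ℕ} [Fact (Nat.Prime p)]

section Pow

variable {Γ : Type*} [LinearOrderedCommGroupWithZero Γ] (v : Valuation O Γ)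

/-- The middle terms of a binomial power are small. -/
theorem val_add_pow_prime (hv : ∀ x, v x ≤ 1) (A B : O) {s : Γ} (hA : v A ≤ s) (hB : v B ≤ s) :
    v ((A + B) ^ p - A ^ p - B ^ p) ≤ v (p : O) * s ^ p := by
  have hp : p.Prime := Fact.out
  rw [add_pow, Finset.sum_range_succ, Nat.sub_self, pow_zero, mul_one, Nat.choose_self,
    Nat.cast_one, mul_one, Finset.range_eq_Ico, Finset.sum_eq_sum_Ico_succ_bot hp.pos, pow_zero,
    one_mul, Nat.sub_zero, Nat.choose_zero_right, Nat.cast_one, mul_one]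
  rw [show B ^ p + ∑ k ∈ Finset.Ico (0 + 1) p, A ^ k * B ^ (p - k) * (p.choose k : O) + A ^ p
      - A ^ p - B ^ p = ∑ k ∈ Finset.Ico (0 + 1) p, A ^ k * B ^ (p - k) * (p.choose k : O) by ring]
  refine v.map_sum_le fun k hk => ?_
  rw [Finset.mem_Ico] at hk
  have hc : v (p.choose k : O) ≤ v (p : O) := by
    refine val_le_of_dvd v hv ?_
    obtain ⟨c, hc⟩ := hp.dvd_choose_self (k := k) (by omega) hk.2
    exact ⟨c, by rw [hc]; push_cast; rfl⟩
  rw [map_mul, mul_comm]
  refine mul_le_mul' hc ?_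
  rw [map_mul, map_pow, map_pow]
  calc v A ^ k * v B ^ (p - k) ≤ s ^ k * s ^ (p - k) :=
        mul_le_mul' (pow_le_pow_left' hA _) (pow_le_pow_left' hB _)
    _ = s ^ p := by rw [← pow_add, Nat.add_sub_cancel' hk.2.le]

theorem val_sub_pow_prime (hv : ∀ x, v x ≤ 1) (x y : O) {s : Γ} (hx : v x ≤ s) (hy : v y ≤ s) :
    v (x ^ p - y ^ p - (x - y) ^ p) ≤ v (p : O) * s ^ p := by
  have h := val_add_pow_prime (p := p) v hv y (x - y) hy (v.map_sub_le hx hy)
  rwa [add_sub_cancel] at h

/-- `x ↦ x ^ p` respects and reflects congruence in a thin slice. -/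
theorem val_pow_sub_pow_le_iff (hv : ∀ x, v x ≤ 1) {x y : O} {s t : Γ} (hx : v x ≤ s) (hy : v y ≤ s)
    (hst : v (p : O) * s ^ p ≤ t ^ p) : v (x ^ p - y ^ p) ≤ t ^ p ↔ v (x - y) ≤ t := by
  have hp : p ≠ 0 := (Fact.out : p.Prime).ne_zero
  have h := (val_sub_pow_prime v hv x y hx hy).trans hst
  constructor
  · intro hxy
    have h2 : v ((x - y) ^ p) ≤ t ^ p := by
      rw [show (x - y) ^ p = (x ^ p - y ^ p) - (x ^ p - y ^ p - (x - y) ^ p) by ring]
      exact v.map_sub_le hxy h
    rw [map_pow] at h2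
    exact (pow_le_pow_iff_left₀ zero_le zero_le hp).1 h2
  · intro hxy
    have h2 : v ((x - y) ^ p) ≤ t ^ p := by
      rw [map_pow]
      exact pow_le_pow_left' hxy _
    rw [show x ^ p - y ^ p = (x - y) ^ p + (x ^ p - y ^ p - (x - y) ^ p) by ring]
    exact v.map_add_le h2 h

end Pow

variable [Fact ¬IsUnit (p : O)] [IsAdicComplete (Ideal.span {(p : O)}) O]
variable {Γ : Type*} [LinearOrderedCommGroupWithZero Γ] (v : Valuation O Γ)

/-- Untilting is additive on a thin slice. -/
theorem slice_add (hv : ∀ x, v x ≤ 1) {s t : Γ} {N : ℕ} (hN : v (p : O) ^ N ≤ s)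
    (hst : v (p : O) * s ≤ t) {a b : PreTilt O p} (ha : v a.untilt ≤ s) (hb : v b.untilt ≤ s) :
    v ((a + b).untilt - (a.untilt + b.untilt)) ≤ t :=
  (val_untilt_add_sub v hv a b N).trans <|
    (mul_le_mul_right (max_le (max_le ha hb) hN) _).trans hst

/-- The tilt elements of size at most `s` are closed under addition. -/
theorem val_untilt_add_le (hv : ∀ x, v x ≤ 1) {s : Γ} {N : ℕ} (hN : v (p : O) ^ N ≤ s)
    {a b : PreTilt O p} (ha : v a.untilt ≤ s) (hb : v b.untilt ≤ s) :
    v (a + b).untilt ≤ s := by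
  rw [show (a + b).untilt
    = (a.untilt + b.untilt) + ((a + b).untilt - (a.untilt + b.untilt)) by ring]
  exact v.map_add_le (v.map_add_le ha hb) (slice_add v hv hN (mul_le_of_le_one_left' (hv _)) ha hb)

/-- Untilting is injective on a thin slice. -/
theorem slice_sub_iff (hv : ∀ x, v x ≤ 1) {s t : Γ} {N : ℕ} (hN : v (p : O) ^ N ≤ s) (hts : t ≤ s)
    (hst : v (p : O) * s ≤ t) {a b : PreTilt O p} (ha : v a.untilt ≤ s) (hb : v b.untilt ≤ s) :
    v (a - b).untilt ≤ t ↔ v (a.untilt - b.untilt) ≤ t := by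
  have key : ∀ {c : PreTilt O p}, v c.untilt ≤ s → b + c = a →
      (v c.untilt ≤ t ↔ v (a.untilt - b.untilt) ≤ t) := by
    intro c hc hbc
    have h := slice_add v hv hN hst hb hc
    rw [hbc] at h
    constructor
    · intro hct
      rw [show a.untilt - b.untilt = c.untilt + (a.untilt - (b.untilt + c.untilt)) by ring]
      exact v.map_add_le hct h
    · intro hab
      rw [show c.untilt = (a.untilt - b.untilt) - (a.untilt - (b.untilt + c.untilt)) by ring]
      exact v.map_sub_le hab h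
  constructor
  · intro hc
    exact (key (hc.trans hts) (by ring)).1 hc
  · intro hab
    refine (key ?_ (by ring)).2 hab
    by_cases hp2 : p = 2
    · subst hp2
      rw [CharTwo.sub_eq_add]
      exact val_untilt_add_le v hv hN ha hb
    · rw [sub_eq_add_neg]
      refine val_untilt_add_le v hv hN ha ?_
      have h2 : Odd p := (Fact.out : p.Prime).odd_of_ne_two hp2
      have hn : ((-1 : PreTilt O p)) ^ p = -1 := h2.neg_one_pow
      rw [← neg_one_mul b, map_mul, map_mul]
      exact (mul_le_of_le_one_left' (hv _)).trans hb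

/-- Every element of a slice is congruent to an untilt of the same slice. -/
theorem exists_slice_untilt (hF : Function.Surjective (frobenius (ModP O p) p))
    (π : PreTilt O p) (hπ : π.untilt = (p : O)) (hv : ∀ x, v x ≤ 1) (hp : v (p : O) < 1)
    {s t : Γ} {N : ℕ} (hN : v (p : O) ^ N ≤ t) (hts : t ≤ s) (hst : v (p : O) * s ≤ t)
    {f : O} (hf : v f ≤ s) :
    ∃ g : PreTilt O p, v g.untilt ≤ s ∧ v (f - g.untilt) ≤ t := by
  obtain ⟨g, hg⟩ := exists_untilt_approx' hF π hπ N f
  obtain ⟨h1, -, -⟩ := hg Γ v hv hp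
  have h2 : v (f - g.untilt) ≤ t :=
    h1.trans ((mul_le_mul_right (max_le hf (hN.trans hts)) _).trans hst)
  refine ⟨g, ?_, h2⟩
  rw [show g.untilt = f - (f - g.untilt) by ring]
  exact v.map_sub_le hf (h2.trans hts)

/-- `x ↦ x ^ p` is onto a thin slice. -/
theorem exists_slice_root (hF : Function.Surjective (frobenius (ModP O p) p))
    (π : PreTilt O p) (hπ : π.untilt = (p : O)) (hv : ∀ x, v x ≤ 1) (hp : v (p : O) < 1)
    {s t : Γ} {N : ℕ} (hN : v (p : O) ^ N ≤ t ^ p) (hts : t ≤ s)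
    (hst : v (p : O) * s ^ p ≤ t ^ p) {z : O} (hz : v z ≤ s ^ p) :
    ∃ x : O, v x ≤ s ∧ v (z - x ^ p) ≤ t ^ p := by
  obtain ⟨g, hg1, hg2⟩ := exists_slice_untilt v hF π hπ hv hp hN (pow_le_pow_left' hts p) hst hz
  refine ⟨((frobeniusEquiv (PreTilt O p) p).symm g).untilt, ?_, ?_⟩
  · have h := PreTilt.untilt_iterate_frobeniusEquiv_symm_pow g 1
    rw [pow_one, Function.iterate_one] at h
    rw [← h, map_pow] at hg1
    exact (pow_le_pow_iff_left₀ zero_le zero_le (Fact.out : p.Prime).ne_zero).1 hg1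
  · have h := PreTilt.untilt_iterate_frobeniusEquiv_symm_pow g 1
    rw [pow_one, Function.iterate_one] at h
    rwa [h]

end Vale.Agent.P202.Perf
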