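import Vale.Agent.P202.Perf.Base
import Vale.Agent.P202.Perf.Slices

/-!
# The perfectoid base

`Aoo` is the `p`-adic completion of the union of the levels. It is `p`-adically complete, `p` is not
a unit, Frobenius is surjective modulo `p` and `p` is an untilt, so `Approx` and `Slices` apply.
-/

namespace Vale.Agent.P202.Perf.Base

open MvPowerSeries

set_option linter.unusedSectionVars false

variable (p : ℕ) [hp : Fact (Nat.Prime p)] (k : Type*) [Field k] [CharP k p] [PerfectRing k p]
variable (σ : Type*) [Finite σ]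

/-- The transition maps as a family. -/
noncomputable abbrev trf : ∀ i j : ℕ, i ≤ j → (An p k σ i →+* An p k σ j) := fun _ _ h => tr p k σ h

instance instDirectedSystemAn : DirectedSystem (An p k σ) (trf p k σ · · ·) where
  map_self i x := by rw [trf, tr_self]; rfl
  map_map i j l hij hjl x := by rw [trf, trf, trf, ← RingHom.comp_apply, tr_comp]

/-- The union of the levels. -/
abbrev Acol : Type _ := DirectLimit (An p k σ) (trf p k σ)

/-- The level `n` inside the union. -/
noncomputable def incl (n : ℕ) : An p k σ n →+* Acol p k σ :=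
  DirectLimit.Ring.of (An p k σ) (trf p k σ) n

/-- The perfectoid base. -/
abbrev Aoo : Type _ := AdicCompletion (Ideal.span {(p : Acol p k σ)}) (Acol p k σ)

/-- The level `n` inside the base. -/
noncomputable def inclC (n : ℕ) : An p k σ n →+* Aoo p k σ :=
  (algebraMap (Acol p k σ) (Aoo p k σ)).comp (incl p k σ n)

variable {p k σ}

theorem incl_tr {n m : ℕ} (h : n ≤ m) (f : An p k σ n) :
    incl p k σ m (tr p k σ h f) = incl p k σ n f :=
  DirectLimit.Ring.of_f h f

theorem inclC_tr {n m : ℕ} (h : n ≤ m) (f : An p k σ n) :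
    inclC p k σ m (tr p k σ h f) = inclC p k σ n f := by
  rw [inclC, inclC, RingHom.comp_apply, RingHom.comp_apply, incl_tr]

theorem incl_injective (n : ℕ) : Function.Injective (incl p k σ n) := by
  refine (injective_iff_map_eq_zero _).2 fun f hf => ?_
  obtain ⟨m, h, hm⟩ := (DirectLimit.exists_eq_zero (f := trf p k σ) ⟨n, f⟩).1 hf
  exact tr_injective h (hm.trans (map_zero _).symm)

theorem exists_incl (x : Acol p k σ) : ∃ n f, incl p k σ n f = x := by
  induction x using DirectLimit.induction with
  | _ n f => exact ⟨n, f, rfl⟩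

theorem exists_inclC_sub (x : Aoo p k σ) :
    ∃ n f, (p : Aoo p k σ) ∣ x - inclC p k σ n f := by
  obtain ⟨a, ha⟩ := Ideal.Quotient.mk_surjective
    (AdicCompletion.evalOneₐ (Ideal.span {(p : Acol p k σ)}) x)
  obtain ⟨n, f, rfl⟩ := exists_incl a
  refine ⟨n, f, ?_⟩
  have h : x - inclC p k σ n f ∈
      RingHom.ker (AdicCompletion.evalOneₐ (Ideal.span {(p : Acol p k σ)})).toRingHom := by
    rw [RingHom.mem_ker, AlgHom.toRingHom_eq_coe, RingHom.coe_coe, map_sub, inclC,
      RingHom.comp_apply, AlgHom.commutes, ← ha]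
    exact sub_self _
  have h' := (SetLike.ext_iff.1 (AdicCompletion.ker_evalOneₐ_eq_map
    (I := Ideal.span {(p : Acol p k σ)}) (Submodule.fg_span_singleton _)) _).1 h
  rw [Ideal.map_span, Set.image_singleton, map_natCast, Ideal.mem_span_singleton] at h'
  exact h'

instance instIsAdicCompleteAoo :
    IsAdicComplete (Ideal.span {(p : Aoo p k σ)}) (Aoo p k σ) := by
  have h := AdicCompletion.isAdicComplete_self (Ideal.span {(p : Acol p k σ)})
    (Submodule.fg_span_singleton _)
  rwa [Ideal.map_span, Set.image_singleton, map_natCast] at h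

theorem p_not_isUnit_col : ¬IsUnit (p : Acol p k σ) := by
  intro hu
  let g : ∀ n, An p k σ n →+* k := fun n => (res n).comp constantCoeff
  have hg : ∀ i j h x, g j (trf p k σ i j h x) = g i x := fun i j h x => by
    simp only [g, trf, tr, RingHom.comp_apply, AlgHom.toRingHom_eq_coe, RingHom.coe_coe,
      constantCoeff_expand, constantCoeff_map]
    rw [← RingHom.comp_apply, res_trans]
  have := hu.map (DirectLimit.Ring.lift (An p k σ) (trf p k σ) k g hg)
  rw [map_natCast, CharP.cast_eq_zero] at this
  exact not_isUnit_zero this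

instance instFactNotUnitAoo : Fact ¬IsUnit (p : Aoo p k σ) := by
  refine ⟨fun hu => p_not_isUnit_col (p := p) (k := k) (σ := σ) ?_⟩
  have := hu.map (AdicCompletion.evalOneₐ (Ideal.span {(p : Acol p k σ)}))
  rw [map_natCast, ← map_natCast (Ideal.Quotient.mk (Ideal.span {(p : Acol p k σ)})),
    Ideal.Quotient.mk_singleton_self] at this
  have h01 : (1 : Acol p k σ) ∈ Ideal.span {(p : Acol p k σ)} := by
    rw [← Ideal.Quotient.eq_zero_iff_mem, map_one]
    exact (isUnit_zero_iff.1 this).symm
  exact isUnit_of_dvd_one (Ideal.mem_span_singleton.1 h01)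

/-- Frobenius is surjective modulo `p`. -/
theorem frobenius_surjective : Function.Surjective (frobenius (ModP (Aoo p k σ) p) p) := by
  intro z
  obtain ⟨x, rfl⟩ := Ideal.Quotient.mk_surjective z
  obtain ⟨n, f, hx⟩ := exists_inclC_sub x
  obtain ⟨g, hg⟩ := exists_root_mod_p n f
  refine ⟨Ideal.Quotient.mk _ (inclC p k σ (n + 1) g), ?_⟩
  rw [frobenius_def, ← map_pow, ← map_pow (inclC p k σ (n + 1)), Ideal.Quotient.eq,
    Ideal.mem_span_singleton]
  have h1 := map_dvd (inclC p k σ (n + 1)) hg
  rw [map_natCast, map_sub, inclC_tr] at h1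
  rw [show inclC p k σ (n + 1) (g ^ p) - x
    = (inclC p k σ (n + 1) (g ^ p) - inclC p k σ n f) - (x - inclC p k σ n f) by ring]
  exact dvd_sub h1 hx

/-- The root `p ^ (1 / p ^ n)` in the base. -/
noncomputable def root (n : ℕ) : Aoo p k σ := inclC p k σ n (C (varpi p k n))

theorem root_succ_pow (n : ℕ) : (root (n + 1) : Aoo p k σ) ^ p = root n := by
  rw [root, root, ← inclC_tr n.le_succ (C (varpi p k n)), tr_C, trans_varpi,
    show n.succ - n = 1 by omega, pow_one, map_pow C, map_pow]

theorem root_zero : (root 0 : Aoo p k σ) = p := by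
  rw [root, show varpi p k 0 = (p : Wn p k 0) by rw [← varpi_pow, pow_zero, pow_one], map_natCast,
    map_natCast]

/-- `p` is an untilt. -/
theorem exists_untilt_eq_p : ∃ π : PreTilt (Aoo p k σ) p, π.untilt = (p : Aoo p k σ) := by
  obtain ⟨π, hπ⟩ := exists_untilt_eq (fun n => (root n : Aoo p k σ)) root_succ_pow
  exact ⟨π, hπ.trans root_zero⟩

end Vale.Agent.P202.Perf.Base
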