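import Vale.Agent.P202.Perf.BaseRoot

/-!
# The levels `W(k)[p ^ (1 / q)][[T ^ (1 / q)]]` and their weight

At level `n` the variables are the `p ^ n`-th roots. `ord` is the content of `f (varpi * T)` at the
uniformiser; it is additive on products (Gauss) and is multiplied by `p ^ (m - n)` from level `n` to
level `m`.
-/

namespace Vale.Agent.P202.Perf.Base

open MvPowerSeries

set_option linter.unusedSectionVars false

variable (p : ℕ) [hp : Fact (Nat.Prime p)] (k : Type*) [Field k] [CharP k p] [PerfectRing k p]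
variable (σ : Type*) [Finite σ]

/-- The base at level `n`. -/
abbrev An (n : ℕ) : Type _ := MvPowerSeries σ (Wn p k n)

/-- The map from level `n` to level `m ≥ n`: each variable becomes the `p ^ (m - n)`-th power. -/
noncomputable def tr {n m : ℕ} (h : n ≤ m) : An p k σ n →+* An p k σ m :=
  (MvPowerSeries.expand (p ^ (m - n)) (pow_ne_zero' (p := p) (m - n))).toRingHom.comp
    (MvPowerSeries.map (trans p k h))

variable {p k σ}

instance instIsDomainAn (n : ℕ) : IsDomain (An p k σ n) := NoZeroDivisors.to_isDomain _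

theorem coeff_tr_smul {n m : ℕ} (h : n ≤ m) (f : An p k σ n) (a : σ →₀ ℕ) :
    coeff (p ^ (m - n) • a) (tr p k σ h f) = trans p k h (coeff a f) := by
  rw [tr, RingHom.comp_apply, AlgHom.toRingHom_eq_coe, RingHom.coe_coe, coeff_expand_smul,
    coeff_map]

theorem coeff_tr_of_not_dvd {n m : ℕ} (h : n ≤ m) (f : An p k σ n) {a : σ →₀ ℕ} {i : σ}
    (hi : ¬p ^ (m - n) ∣ a i) : coeff a (tr p k σ h f) = 0 := by
  rw [tr, RingHom.comp_apply]
  exact coeff_expand_of_not_dvd _ _ _ hi

theorem tr_self (n : ℕ) : tr p k σ (le_refl n) = RingHom.id _ := by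
  refine RingHom.ext fun f => MvPowerSeries.ext fun a => ?_
  have h := coeff_tr_smul (le_refl n) f a
  rwa [Nat.sub_self, pow_zero, one_smul, trans_self] at h

theorem tr_comp {n m l : ℕ} (h : n ≤ m) (h' : m ≤ l) :
    (tr p k σ h').comp (tr p k σ h) = tr p k σ (h.trans h') := by
  refine RingHom.ext fun f => ?_
  have he : p ^ (l - n) = p ^ (l - m) * p ^ (m - n) := by
    rw [← pow_add]
    congr 1
    omega
  simp only [tr, RingHom.comp_apply, AlgHom.toRingHom_eq_coe, RingHom.coe_coe, map_expand,
    ← MvPowerSeries.expand_mul, he]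
  rw [← RingHom.comp_apply, ← MvPowerSeries.map_comp, trans_comp]

theorem tr_X {n m : ℕ} (h : n ≤ m) (i : σ) : tr p k σ h (X i) = X i ^ p ^ (m - n) := by
  rw [tr, RingHom.comp_apply, MvPowerSeries.map_X]
  exact expand_X _ _ _

theorem tr_C {n m : ℕ} (h : n ≤ m) (c : Wn p k n) : tr p k σ h (C c) = C (trans p k h c) := by
  rw [tr, RingHom.comp_apply, MvPowerSeries.map_C]
  exact expand_C _ _ _

/-- Divisibility by a constant is tested on coefficients. -/
theorem C_dvd_iff {R : Type*} [CommRing R] {c : R} {f : MvPowerSeries σ R} :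
    C c ∣ f ↔ ∀ a, c ∣ coeff a f := by
  refine ⟨fun ⟨g, hg⟩ a => ⟨coeff a g, by rw [hg, coeff_C_mul]⟩, fun h => ?_⟩
  choose g hg using h
  let g' : MvPowerSeries σ R := fun a => g a
  exact ⟨g', MvPowerSeries.ext fun a => by rw [coeff_C_mul]; exact hg a⟩

theorem prime_C_varpi (n : ℕ) : Prime (C (varpi p k n) : An p k σ n) := by
  have hd : ∀ f : An p k σ n, C (varpi p k n) ∣ f ↔ MvPowerSeries.map (res n) f = 0 := by
    intro f
    rw [C_dvd_iff, MvPowerSeries.ext_iff]
    refine forall_congr' fun a => ?_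
    rw [coeff_map, map_zero, ← Ideal.mem_span_singleton, ← ker_res, RingHom.mem_ker]
  refine ⟨?_, fun hu => ?_, fun f g hfg => ?_⟩
  · rw [map_ne_zero_iff _ (fun x y hxy => ?_)]
    · exact varpi_ne_zero n
    · simpa using congrArg (coeff 0) hxy
  · have := hu.map (MvPowerSeries.map (res n))
    rw [MvPowerSeries.map_C, res_varpi, map_zero] at this
    exact not_isUnit_zero this
  · rw [hd, map_mul, mul_eq_zero] at hfg
    rwa [hd, hd]

/-- Rescaling every variable by the uniformiser. -/
noncomputable def scale (n : ℕ) : An p k σ n →+* An p k σ n :=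
  rescale fun _ => varpi p k n

theorem coeff_scale (n : ℕ) (f : An p k σ n) (a : σ →₀ ℕ) :
    coeff a (scale n f) = varpi p k n ^ a.degree * coeff a f := by
  rw [scale, coeff_rescale, Finsupp.prod, Finset.prod_pow_eq_pow_sum, Finsupp.degree_apply]

theorem scale_injective (n : ℕ) : Function.Injective (scale (p := p) (k := k) (σ := σ) n) := by
  intro f g hfg
  ext a
  have := congrArg (coeff a) hfg
  rw [coeff_scale, coeff_scale] at this
  exact mul_left_cancel₀ (pow_ne_zero _ (varpi_ne_zero n)) this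

/-- The weight, in units `1 / p ^ n`. -/
noncomputable def ord (n : ℕ) (f : An p k σ n) : ℕ∞ :=
  emultiplicity (C (varpi p k n)) (scale n f)

theorem le_ord_iff (n : ℕ) (f : An p k σ n) (j : ℕ) :
    (j : ℕ∞) ≤ ord n f ↔ ∀ a, varpi p k n ^ j ∣ varpi p k n ^ a.degree * coeff a f := by
  simp only [ord, ← pow_dvd_iff_le_emultiplicity, ← map_pow, C_dvd_iff, coeff_scale]

theorem ord_mul (n : ℕ) (f g : An p k σ n) : ord n (f * g) = ord n f + ord n g := by
  rw [ord, map_mul, emultiplicity_mul (prime_C_varpi n)]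
  rfl

theorem min_le_ord_add (n : ℕ) (f g : An p k σ n) :
    min (ord n f) (ord n g) ≤ ord n (f + g) := by
  rw [ord, ord, ord, map_add]
  exact min_le_emultiplicity_add

theorem ord_eq_top_iff {n : ℕ} {f : An p k σ n} : ord n f = ⊤ ↔ f = 0 := by
  refine ⟨fun h => ?_, fun h => by rw [ord, h, map_zero, emultiplicity_zero]⟩
  apply scale_injective n
  rw [map_zero]
  by_contra h0
  exact (emultiplicity_eq_top.1 h) (FiniteMultiplicity.of_prime_left (prime_C_varpi n) h0)

theorem ord_C_varpi (n : ℕ) : ord n (C (varpi p k n) : An p k σ n) = 1 := by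
  have h : scale n (C (varpi p k n) : An p k σ n) = C (varpi p k n) := by
    classical
    refine MvPowerSeries.ext fun a => ?_
    rw [coeff_scale, coeff_C]
    split_ifs with ha
    · rw [ha, map_zero, pow_zero, one_mul]
    · rw [mul_zero]
  rw [ord, h]
  exact (FiniteMultiplicity.of_prime_left (prime_C_varpi n) (prime_C_varpi n).ne_zero).emultiplicity_self

theorem ord_X (n : ℕ) (i : σ) : ord n (X i : An p k σ n) = 1 := by
  have h : scale n (X i : An p k σ n) = C (varpi p k n) * X i := by
    classical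
    refine MvPowerSeries.ext fun a => ?_
    rw [coeff_scale, coeff_C_mul, coeff_X]
    split_ifs with ha
    · rw [ha, Finsupp.degree_single, pow_one]
    · rw [mul_zero, mul_zero]
  have hX : ¬C (varpi p k n) ∣ (X i : An p k σ n) := fun hd => by
    classical
    have := (C_dvd_iff.1 hd) (Finsupp.single i 1)
    rw [coeff_X, if_pos rfl] at this
    exact (varpi_prime n).not_dvd_one this
  rw [ord, h, emultiplicity_mul (prime_C_varpi n), emultiplicity_eq_zero.2 hX, add_zero]
  exact (FiniteMultiplicity.of_prime_left (prime_C_varpi n) (prime_C_varpi n).ne_zero).emultiplicity_self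

theorem ord_p (n : ℕ) : ord n (p : An p k σ n) = (p ^ n : ℕ) := by
  rw [← map_natCast (C (σ := σ) (R := Wn p k n)), ← varpi_pow, map_pow]
  induction p ^ n with
  | zero => rw [pow_zero, ord, map_one, emultiplicity_of_one_right (prime_C_varpi n).not_isUnit]; rfl
  | succ j ih => rw [pow_succ, ord_mul, ih, ord_C_varpi]; push_cast; rfl

theorem scale_tr {n m : ℕ} (h : n ≤ m) (f : An p k σ n) :
    scale m (tr p k σ h f) = tr p k σ h (scale n f) := by
  refine MvPowerSeries.ext fun a => ?_
  rw [coeff_scale]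
  by_cases ha : ∀ i, p ^ (m - n) ∣ a i
  · obtain ⟨b, rfl⟩ : ∃ b, p ^ (m - n) • b = a :=
      ⟨a.mapRange (fun t => t / p ^ (m - n)) (Nat.zero_div _),
        Finsupp.ext fun i => by simp [Nat.mul_div_cancel' (ha i)]⟩
    rw [coeff_tr_smul, coeff_tr_smul, coeff_scale, map_mul, map_pow, trans_varpi, map_nsmul,
      smul_eq_mul, pow_mul]
  · obtain ⟨i, hi⟩ := not_forall.1 ha
    rw [coeff_tr_of_not_dvd h f hi, coeff_tr_of_not_dvd h _ hi, mul_zero]

theorem res_trans {n m : ℕ} (h : n ≤ m) : (res m).comp (trans p k h) = res n :=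
  ringHom_ext (fun x => by rw [RingHom.comp_apply, trans_of, res_of, res_of]) (by
    rw [RingHom.comp_apply, trans_varpi, map_pow, res_varpi, res_varpi, zero_pow (pow_ne_zero' _)])

/-- Moving to level `m` multiplies the weight by `p ^ (m - n)`. -/
theorem ord_tr {n m : ℕ} (h : n ≤ m) (f : An p k σ n) :
    ord m (tr p k σ h f) = (p ^ (m - n) : ℕ) * ord n f := by
  rcases eq_or_ne f 0 with rfl | hf
  · rw [map_zero, ord_eq_top_iff.2 rfl, ord_eq_top_iff.2 rfl,
      ENat.mul_top (by exact_mod_cast pow_ne_zero' _)]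
  have h0 : scale n f ≠ 0 := fun h0 => hf (scale_injective n (h0.trans (map_zero _).symm))
  obtain ⟨u, hu, hdvd⟩ :=
    (FiniteMultiplicity.of_prime_left (prime_C_varpi n) h0).exists_eq_pow_mul_and_not_dvd
  set e := multiplicity (C (varpi p k n)) (scale n f) with he
  have hord : ord n f = e :=
    (FiniteMultiplicity.of_prime_left (prime_C_varpi n) h0).emultiplicity_eq_multiplicity
  have hu' : ¬C (varpi p k m) ∣ tr p k σ h u := by
    intro hd
    refine hdvd (C_dvd_iff.2 fun a => ?_)
    have := (C_dvd_iff.1 hd) (p ^ (m - n) • a)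
    rw [coeff_tr_smul, ← Ideal.mem_span_singleton, ← ker_res, RingHom.mem_ker,
      ← RingHom.comp_apply, res_trans] at this
    rwa [← Ideal.mem_span_singleton, ← ker_res, RingHom.mem_ker]
  rw [hord, ord, scale_tr, hu, map_mul, map_pow, tr_C, trans_varpi, map_pow, ← pow_mul,
    emultiplicity_mul (prime_C_varpi m), emultiplicity_eq_zero.2 hu', add_zero,
    emultiplicity_pow_self (prime_C_varpi m).ne_zero (prime_C_varpi m).not_isUnit, Nat.cast_mul]

theorem tr_injective {n m : ℕ} (h : n ≤ m) : Function.Injective (tr p k σ h) := by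
  refine (injective_iff_map_eq_zero _).2 fun f hf => ?_
  by_contra hf0
  have := ord_tr h f
  rw [hf, ord_eq_top_iff.2 rfl] at this
  exact WithTop.mul_ne_top (ENat.natCast_ne_top _) (mt ord_eq_top_iff.1 hf0) this.symm

/-- One level up every element is a `p`-th power modulo `p`. -/
theorem exists_root_mod_p (n : ℕ) (f : An p k σ n) :
    ∃ g : An p k σ (n + 1), (p : An p k σ (n + 1)) ∣ g ^ p - tr p k σ n.le_succ f := by
  choose y hy using fun a => exists_root_mod n (coeff a f)
  let g : An p k σ (n + 1) := fun a => y a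
  refine ⟨g, ?_⟩
  set W := Wn p k (n + 1)
  set I := Ideal.span {(p : W)}
  have hne : ¬IsUnit (p : W) := fun hu =>
    (varpi_prime (n + 1)).not_isUnit (isUnit_of_dvd_unit (dvd_p (n + 1)) hu)
  have : CharP (W ⧸ I) p := CharP.quotient W p hne
  have hg : MvPowerSeries.map (Ideal.Quotient.mk I) (g ^ p)
      = MvPowerSeries.map (Ideal.Quotient.mk I) (tr p k σ n.le_succ f) := by
    rw [map_pow, ← map_frobenius_expand (hp := hp.out.ne_zero), tr, RingHom.comp_apply,
      AlgHom.toRingHom_eq_coe, RingHom.coe_coe, map_expand, map_expand]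
    simp only [show n.succ - n = 1 by omega, pow_one]
    congr 1
    refine MvPowerSeries.ext fun a => ?_
    rw [coeff_map, coeff_map, coeff_map, coeff_map, frobenius_def, ← map_pow, Ideal.Quotient.eq,
      Ideal.mem_span_singleton]
    exact hy a
  rw [← map_natCast (C (σ := σ) (R := W)), C_dvd_iff]
  intro a
  rw [← Ideal.mem_span_singleton, map_sub, ← Ideal.Quotient.eq, ← coeff_map, ← coeff_map, hg]

end Vale.Agent.P202.Perf.Base
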