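import Mathlib

/-!
# The approximation lemma for untilted elements

`O` is a `p`-adically complete ring on which Frobenius modulo `p` is surjective and in which `p` is the
untilt of some `π`. Every `f : O` is approximated by untilts, simultaneously for all valuations
bounded by `1`, with error at most `|p| · max (|f|) (|p| ^ m)`.
-/

namespace Vale.Agent.P202.Perf

variable {O : Type*} [CommRing O] {p : ℕ} [Fact (Nat.Prime p)] [Fact ¬IsUnit (p : O)]
variable [IsAdicComplete (Ideal.span {(p : O)}) O]

open Ideal

/-- Untilting is additive modulo `p`. -/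
theorem dvd_untilt_add_sub (a b : PreTilt O p) :
    (p : O) ∣ (a + b).untilt - (a.untilt + b.untilt) := by
  rw [← mem_span_singleton, ← Ideal.Quotient.eq]
  simp only [map_add, PreTilt.mk_untilt_eq_coeff_zero]

/-- A compatible system of `p`-power roots is untilted from one element of the tilt. -/
theorem exists_untilt_eq (s : ℕ → O) (hs : ∀ n, s (n + 1) ^ p = s n) :
    ∃ π : PreTilt O p, π.untilt = s 0 := by
  let π : PreTilt O p :=
    ⟨fun n => Ideal.Quotient.mk _ (s n), fun n => by rw [← map_pow, hs]⟩
  refine ⟨π, sub_eq_zero.1 (IsHausdorff.haus' (I := span {(p : O)}) _ fun n => ?_)⟩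
  rw [SModEq.zero, smul_eq_mul, Ideal.mul_top, span_singleton_pow, mem_span_singleton]
  have hn : ∀ n, s n ^ p ^ n = s 0 := by
    intro n
    induction n with
    | zero => simp
    | succ n ih => rw [pow_succ', pow_mul, hs, ih]
  have hd : (p : O) ∣ (((frobeniusEquiv (PreTilt O p) p).symm^[n]) π).untilt - s n := by
    rw [← mem_span_singleton, ← Ideal.Quotient.eq, PreTilt.mk_untilt_eq_coeff_zero,
      PreTilt.coeff_iterate_frobeniusEquiv_symm, zero_add]
    rfl
  have := dvd_sub_pow_of_dvd_sub hd n
  rw [PreTilt.untilt_iterate_frobeniusEquiv_symm_pow, hn] at this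
  exact (pow_dvd_pow _ n.le_succ).trans this

variable {Γ : Type*} [LinearOrderedCommGroupWithZero Γ] (v : Valuation O Γ)

theorem val_le_of_dvd (hv : ∀ x, v x ≤ 1) {a b : O} (h : a ∣ b) : v b ≤ v a := by
  obtain ⟨c, rfl⟩ := h
  rw [map_mul]
  exact mul_le_of_le_one_right' (hv c)

/-- The defect of additivity of untilting, measured by a valuation. -/
theorem val_untilt_add_sub (hv : ∀ x, v x ≤ 1) (a b : PreTilt O p) (N : ℕ) :
    v ((a + b).untilt - (a.untilt + b.untilt))
      ≤ v (p : O) * max (max (v a.untilt) (v b.untilt)) (v (p : O) ^ N) := by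
  have hp : p.Prime := Fact.out
  set r : PreTilt O p → PreTilt O p := ((frobeniusEquiv (PreTilt O p) p).symm^[N]) with hr
  set A := (r a).untilt
  set B := (r b).untilt
  have hA : A ^ p ^ N = a.untilt := PreTilt.untilt_iterate_frobeniusEquiv_symm_pow a N
  have hB : B ^ p ^ N = b.untilt := PreTilt.untilt_iterate_frobeniusEquiv_symm_pow b N
  have hC : (r (a + b)).untilt ^ p ^ N = (a + b).untilt :=
    PreTilt.untilt_iterate_frobeniusEquiv_symm_pow (a + b) N
  have hadd : r (a + b) = r a + r b := iterate_map_add _ N a b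
  have hdvd := dvd_sub_pow_of_dvd_sub (dvd_untilt_add_sub (r a) (r b)) N
  rw [← hadd, hC] at hdvd
  set M := max (max (v a.untilt) (v b.untilt)) (v (p : O) ^ N) with hM
  have h1 : v ((a + b).untilt - (A + B) ^ p ^ N) ≤ v (p : O) * M := by
    refine (val_le_of_dvd v hv hdvd).trans ?_
    rw [map_pow, pow_succ']
    exact mul_le_mul_right (le_max_right _ _) _
  have h2 : v ((A + B) ^ p ^ N - (A ^ p ^ N + B ^ p ^ N)) ≤ v (p : O) * M := by
    set n := p ^ N with hn
    have hn0 : 0 < n := pow_pos hp.pos N
    rw [add_pow, Finset.sum_range_succ, Nat.sub_self, pow_zero, mul_one, Nat.choose_self,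
      Nat.cast_one, mul_one, Finset.range_eq_Ico, Finset.sum_eq_sum_Ico_succ_bot hn0, pow_zero,
      one_mul, Nat.sub_zero, Nat.choose_zero_right, Nat.cast_one, mul_one]
    rw [show B ^ n + ∑ k ∈ Finset.Ico (0 + 1) n, A ^ k * B ^ (n - k) * (n.choose k : O) + A ^ n
        - (A ^ n + B ^ n) = ∑ k ∈ Finset.Ico (0 + 1) n, A ^ k * B ^ (n - k) * (n.choose k : O) by ring]
    refine v.map_sum_le fun k hk => ?_
    rw [Finset.mem_Ico] at hk
    have hc : v (n.choose k : O) ≤ v (p : O) := by
      refine val_le_of_dvd v hv ?_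
      obtain ⟨c, hc⟩ := hp.dvd_choose_pow (n := N) (k := k) (by omega) (by omega)
      exact ⟨c, by rw [hn, hc]; push_cast; rfl⟩
    rw [map_mul, mul_comm]
    refine mul_le_mul' hc ?_
    refine le_trans ?_ (le_max_left _ _)
    rw [map_mul, map_pow, map_pow, ← hA, ← hB, map_pow, map_pow]
    calc v A ^ k * v B ^ (n - k) ≤ max (v A) (v B) ^ k * max (v A) (v B) ^ (n - k) :=
          mul_le_mul' (pow_le_pow_left' (le_max_left _ _) _) (pow_le_pow_left' (le_max_right _ _) _)
      _ = max (v A) (v B) ^ n := by rw [← pow_add, Nat.add_sub_cancel' hk.2.le]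
      _ ≤ _ := by
          rcases le_total (v A) (v B) with h | h
          · rw [max_eq_right h]; exact le_max_right _ _
          · rw [max_eq_left h]; exact le_max_left _ _
  rw [hA, hB] at h2
  calc v ((a + b).untilt - (a.untilt + b.untilt))
      = v (((a + b).untilt - (A + B) ^ p ^ N) + ((A + B) ^ p ^ N - (a.untilt + b.untilt))) := by
        congr 1; ring
    _ ≤ _ := v.map_add_le h1 h2

/-- Approximation by untilts: one element of the tilt works for every valuation bounded by `1`. -/
theorem exists_untilt_approx (hF : Function.Surjective (frobenius (ModP O p) p))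
    (π : PreTilt O p) (hπ : π.untilt = (p : O)) (m : ℕ) :
    ∀ f : O, ∃ g : PreTilt O p, (p : O) ∣ f - g.untilt ∧
      ∀ (Γ : Type*) [LinearOrderedCommGroupWithZero Γ] (v : Valuation O Γ), (∀ x, v x ≤ 1) →
        v (f - g.untilt) ≤ v (p : O) * max (v g.untilt) (v (p : O) ^ m) := by
  induction m with
  | zero =>
    intro f
    obtain ⟨g, hg⟩ : ∃ g : PreTilt O p, PreTilt.coeff 0 g = Ideal.Quotient.mk _ f :=
      Perfection.coeff_surjective hF 0 _
    have hd : (p : O) ∣ f - g.untilt := by
      rw [← mem_span_singleton, ← Ideal.Quotient.eq, PreTilt.mk_untilt_eq_coeff_zero]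
      exact hg.symm
    refine ⟨g, hd, fun Γ _ v hv => ?_⟩
    refine (val_le_of_dvd v hv hd).trans ?_
    rw [pow_zero, max_eq_right (hv _), mul_one]
  | succ m ih =>
    intro f
    obtain ⟨g, ⟨e, he⟩, hg⟩ := ih f
    obtain ⟨h, ⟨e', he'⟩, hh⟩ := ih e
    refine ⟨g + π * h, ?_, fun Γ _ v hv => ?_⟩
    · have h1 := dvd_untilt_add_sub g (π * h)
      rw [map_mul, hπ] at h1
      rw [show f - (g + π * h).untilt = (p : O) * (e - h.untilt)
        - ((g + π * h).untilt - (g.untilt + (p : O) * h.untilt)) by linear_combination he]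
      exact dvd_sub (dvd_mul_right _ _) h1
    set P := v (p : O) with hP
    have hT := val_untilt_add_sub v hv g (π * h) (m + 1)
    rw [map_mul, hπ, map_mul, ← hP] at hT
    have hdec : f - (g + π * h).untilt = (p : O) * (e - h.untilt)
        - ((g + π * h).untilt - (g.untilt + (p : O) * h.untilt)) := by linear_combination he
    rcases eq_or_lt_of_le (hv (p : O)) with hP1 | hP1
    · rw [hP, hP1, one_pow, max_eq_right (hv _), mul_one]
      exact hv _
    rcases eq_or_ne P 0 with hP0 | hP0
    · have : v (f - (g + π * h).untilt) ≤ 0 := by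
        refine (v.map_add_le (x := (p : O) * (e - h.untilt))
          (y := -((g + π * h).untilt - (g.untilt + (p : O) * h.untilt))) (g := 0) ?_ ?_).trans' ?_
        · rw [map_mul, ← hP, hP0, zero_mul]
        · rw [Valuation.map_neg]; simpa [hP0] using hT
        · rw [← sub_eq_add_neg, ← hdec]
      exact this.trans zero_le
    have he1 : v e ≤ max (v g.untilt) (P ^ m) := by
      have := hg Γ v hv
      rw [he, map_mul, ← hP] at this
      exact (mul_le_mul_iff_right₀ (zero_lt_iff.2 hP0)).1 this
    have heh := hh Γ v hv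
    rw [← hP] at heh
    have hhG : v h.untilt ≤ max (v g.untilt) (P ^ m) := by
      by_contra hlt
      rw [not_le] at hlt
      have hh0 : (0 : Γ) < v h.untilt := lt_of_le_of_lt zero_le hlt
      have h1 : v (e - h.untilt) < v h.untilt := by
        refine heh.trans_lt ?_
        rw [max_eq_left ((le_max_right _ _).trans hlt.le)]
        exact mul_lt_of_lt_one_left hh0 hP1
      have := v.map_sub_lt (he1.trans_lt hlt) h1
      rw [sub_sub_cancel] at this
      exact lt_irrefl _ this
    have hPG : P * max (v g.untilt) (P ^ m) ≤ max (v g.untilt) (P ^ (m + 1)) := by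
      rw [mul_max, ← pow_succ']
      exact max_le_max (mul_le_of_le_one_left' hP1.le) le_rfl
    have hT' : v ((g + π * h).untilt - (g.untilt + (p : O) * h.untilt))
        ≤ P * max (v g.untilt) (P ^ (m + 1)) := by
      refine hT.trans (mul_le_mul_right ?_ _)
      exact max_le (max_le (le_max_left _ _) ((mul_le_mul_right hhG _).trans hPG)) (le_max_right _ _)
    have hg' : v g.untilt ≤ max (v (g + π * h).untilt) (P ^ (m + 1)) := by
      by_contra hlt
      rw [not_le, max_lt_iff] at hlt
      have hg0 : (0 : Γ) < v g.untilt := lt_of_le_of_lt zero_le hlt.1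
      have hmax : max (v g.untilt) (P ^ (m + 1)) = v g.untilt := max_eq_left hlt.2.le
      have hb : v ((p : O) * h.untilt) < v g.untilt := by
        rw [map_mul, ← hP]
        refine (mul_le_mul_right hhG _).trans_lt ?_
        rw [mul_max, ← pow_succ']
        exact max_lt (mul_lt_of_lt_one_left hg0 hP1) hlt.2
      have ht : v ((g + π * h).untilt - (g.untilt + (p : O) * h.untilt)) < v g.untilt := by
        refine hT'.trans_lt ?_
        rw [hmax]
        exact mul_lt_of_lt_one_left hg0 hP1
      have := v.map_sub_lt (v.map_sub_lt hlt.1 ht) hb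
      rw [sub_sub_cancel, add_sub_cancel_right] at this
      exact lt_irrefl _ this
    rw [hdec]
    refine v.map_sub_le ?_ (hT'.trans ?_)
    · rw [map_mul, ← hP]
      refine mul_le_mul_right (heh.trans ?_) _
      refine ((mul_le_mul_right (max_le hhG (le_max_right _ _)) _).trans hPG).trans ?_
      exact max_le hg' (le_max_right _ _)
    · exact mul_le_mul_right (max_le hg' (le_max_right _ _)) _

/-- The approximation lemma: error at most `|p| · max (|f|, |p| ^ m)`, and the domain where the
approximant is at least `|p| ^ m` is the same, with the same values there. -/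
theorem exists_untilt_approx' (hF : Function.Surjective (frobenius (ModP O p) p))
    (π : PreTilt O p) (hπ : π.untilt = (p : O)) (m : ℕ) (f : O) :
    ∃ g : PreTilt O p, ∀ (Γ : Type*) [LinearOrderedCommGroupWithZero Γ] (v : Valuation O Γ),
      (∀ x, v x ≤ 1) → v (p : O) < 1 →
        v (f - g.untilt) ≤ v (p : O) * max (v f) (v (p : O) ^ m) ∧
        max (v f) (v (p : O) ^ m) = max (v g.untilt) (v (p : O) ^ m) ∧
        (v (p : O) ^ m < v f → v g.untilt = v f) := by
  obtain ⟨g, -, hg⟩ := exists_untilt_approx hF π hπ m f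
  refine ⟨g, fun Γ _ v hv hp => ?_⟩
  have h := hg Γ v hv
  set P := v (p : O) with hP
  have key : max (v f) (P ^ m) = max (v g.untilt) (P ^ m) ∧ (P ^ m < v f → v g.untilt = v f) := by
    rcases lt_or_ge (P ^ m) (v g.untilt) with hlt | hle
    · have hg0 : (0 : Γ) < v g.untilt := lt_of_le_of_lt zero_le hlt
      rw [max_eq_left hlt.le] at h
      have hd : v (f - g.untilt) < v g.untilt := h.trans_lt (mul_lt_of_lt_one_left hg0 hp)
      have heq : v f = v g.untilt := by
        rw [show f = g.untilt + (f - g.untilt) by ring]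
        exact v.map_add_eq_of_lt_left hd
      exact ⟨by rw [heq], fun _ => heq.symm⟩
    · rw [max_eq_right hle] at h
      have hf : v f ≤ P ^ m := by
        rw [show f = g.untilt + (f - g.untilt) by ring]
        exact v.map_add_le hle (h.trans (mul_le_of_le_one_left' hp.le))
      exact ⟨by rw [max_eq_right hle, max_eq_right hf], fun hlt => absurd hlt hf.not_gt⟩
  exact ⟨key.1 ▸ h, key⟩

end Vale.Agent.P202.Perf
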