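import Mathlib

/-!
# The rings `W(k)[p ^ (1 / p ^ n)]`

`W(k)[varpi]` with `varpi ^ (p ^ n) = p` is a discrete valuation ring with residue field `k`;
the maps between the levels and the existence of `p`-th roots modulo `p` one level up.
-/

namespace Vale.Agent.P202.Perf.Base

open Polynomial

variable (p : ℕ) [hp : Fact (Nat.Prime p)] (k : Type*) [Field k] [CharP k p] [PerfectRing k p]

/-- The Eisenstein polynomial `X ^ (p ^ n) - p`. -/
noncomputable abbrev rootPoly (n : ℕ) : (WittVector p k)[X] := X ^ p ^ n - C (p : WittVector p k)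

/-- `W(k)[p ^ (1 / p ^ n)]`. -/
abbrev Wn (n : ℕ) : Type _ := AdjoinRoot (rootPoly p k n)

/-- The uniformiser. -/
noncomputable abbrev varpi (n : ℕ) : Wn p k n := AdjoinRoot.root _

variable {p k}

set_option linter.unusedSectionVars false

theorem pow_ne_zero' (n : ℕ) : p ^ n ≠ 0 := pow_ne_zero _ hp.out.ne_zero

theorem rootPoly_monic (n : ℕ) : (rootPoly p k n).Monic := monic_X_pow_sub_C _ (pow_ne_zero' n)

theorem rootPoly_natDegree (n : ℕ) : (rootPoly p k n).natDegree = p ^ n :=
  natDegree_X_pow_sub_C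

theorem rootPoly_degree_ne_zero (n : ℕ) : (rootPoly p k n).degree ≠ 0 := by
  rw [degree_X_pow_sub_C (pow_pos hp.out.pos n)]
  exact_mod_cast pow_ne_zero' n

theorem span_p_isMaximal : (Ideal.span {(p : WittVector p k)}).IsMaximal := by
  rw [← WittVector.ker_constantCoeff]
  exact RingHom.ker_isMaximal_of_surjective _ (WittVector.constantCoeff_surjective p)

theorem rootPoly_irreducible (n : ℕ) : Irreducible (rootPoly p k n) := by
  have hmax := span_p_isMaximal (p := p) (k := k)
  refine Polynomial.IsEisensteinAt.irreducible (𝓟 := Ideal.span {(p : WittVector p k)}) ?_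
    hmax.isPrime (rootPoly_monic n).isPrimitive
    (by rw [rootPoly_natDegree]; exact pow_pos hp.out.pos n)
  refine ⟨?_, fun {i} hi => ?_, ?_⟩
  · rw [(rootPoly_monic n).leadingCoeff]
    exact fun h => hmax.ne_top ((Ideal.eq_top_iff_one _).2 h)
  · rw [rootPoly_natDegree] at hi
    rw [coeff_sub, coeff_X_pow, if_neg hi.ne, coeff_C, zero_sub]
    refine neg_mem ?_
    split_ifs
    · exact Ideal.mem_span_singleton_self _
    · exact zero_mem _
  · rw [coeff_sub, coeff_X_pow, if_neg (pow_ne_zero' n).symm, coeff_C, if_pos rfl, zero_sub,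
      neg_mem_iff, Ideal.span_singleton_pow, Ideal.mem_span_singleton]
    intro h
    have hp0 : (p : WittVector p k) ≠ 0 := WittVector.p_nonzero p k
    obtain ⟨c, hc⟩ := h
    have : (p : WittVector p k) * c = 1 := mul_left_cancel₀ hp0 (by rw [mul_one, ← mul_assoc, ← sq, ← hc])
    exact hmax.ne_top ((Ideal.eq_top_iff_one _).2 (this ▸ Ideal.mul_mem_right _ _ (Ideal.mem_span_singleton_self _)))

instance instIsDomainWn (n : ℕ) : IsDomain (Wn p k n) :=
  AdjoinRoot.isDomain_of_prime (UniqueFactorizationMonoid.irreducible_iff_prime.1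
    (rootPoly_irreducible n))

@[simp]
theorem varpi_pow (n : ℕ) : varpi p k n ^ p ^ n = (p : Wn p k n) := by
  have h := AdjoinRoot.eval₂_root (rootPoly p k n)
  rw [eval₂_sub, eval₂_X_pow, eval₂_C, map_natCast, sub_eq_zero] at h
  exact h

theorem p_ne_zero (n : ℕ) : (p : Wn p k n) ≠ 0 := by
  rw [← map_natCast (AdjoinRoot.of (rootPoly p k n)),
    map_ne_zero_iff _ (AdjoinRoot.of.injective_of_degree_ne_zero (rootPoly_degree_ne_zero n))]
  exact WittVector.p_nonzero p k

theorem varpi_ne_zero (n : ℕ) : varpi p k n ≠ 0 := by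
  intro h
  apply p_ne_zero (p := p) (k := k) n
  rw [← varpi_pow, h, zero_pow (pow_ne_zero' n)]

/-- Reduction to the residue field. -/
noncomputable def res (n : ℕ) : Wn p k n →+* k :=
  AdjoinRoot.lift WittVector.constantCoeff 0 (by
    rw [eval₂_sub, eval₂_X_pow, eval₂_C, zero_pow (pow_ne_zero' n), map_natCast,
      CharP.cast_eq_zero, sub_zero])

theorem res_of (n : ℕ) (x : WittVector p k) :
    res n (AdjoinRoot.of (rootPoly p k n) x) = WittVector.constantCoeff x :=
  AdjoinRoot.lift_of _

theorem res_varpi (n : ℕ) : res n (varpi p k n) = 0 := AdjoinRoot.lift_root _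

theorem res_surjective (n : ℕ) : Function.Surjective (res (p := p) (k := k) n) := fun a => by
  obtain ⟨x, rfl⟩ := WittVector.constantCoeff_surjective p a
  exact ⟨_, res_of n x⟩

theorem dvd_p (n : ℕ) : varpi p k n ∣ (p : Wn p k n) := by
  rw [← varpi_pow]
  exact dvd_pow_self _ (pow_ne_zero' n)

theorem ker_res (n : ℕ) : RingHom.ker (res (p := p) (k := k) n) = Ideal.span {varpi p k n} := by
  refine le_antisymm (fun x hx => ?_)
    ((Ideal.span_singleton_le_iff_mem _).2 (RingHom.mem_ker.2 (res_varpi n)))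
  induction x using AdjoinRoot.induction_on with
  | ih g =>
    rw [RingHom.mem_ker, ← X_mul_divX_add g, map_add, map_mul, map_add, map_mul, AdjoinRoot.mk_X,
      res_varpi, zero_mul, zero_add, AdjoinRoot.mk_C, res_of] at hx
    have hm : g.coeff 0 ∈ Ideal.span {(p : WittVector p k)} := by
      rw [← WittVector.ker_constantCoeff]
      exact hx
    obtain ⟨c, hc⟩ := Ideal.mem_span_singleton.1 hm
    rw [← X_mul_divX_add g, map_add, map_mul, AdjoinRoot.mk_X, AdjoinRoot.mk_C,
      Ideal.mem_span_singleton]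
    refine dvd_add (dvd_mul_right _ _) ?_
    rw [hc, map_mul, map_natCast]
    exact dvd_mul_of_dvd_left (dvd_p n) _

theorem maximal_eq (n : ℕ) (M : Ideal (Wn p k n)) (hM : M.IsMaximal) :
    M = Ideal.span {varpi p k n} := by
  have := (rootPoly_monic (p := p) (k := k) n).finite_adjoinRoot
  have hc : (M.comap (algebraMap (WittVector p k) (Wn p k n))).IsMaximal :=
    Ideal.isMaximal_comap_of_isIntegral_of_isMaximal M
  have hp' : (p : Wn p k n) ∈ M := by
    have h : (p : WittVector p k) ∈ M.comap (algebraMap (WittVector p k) (Wn p k n)) := by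
      rw [IsLocalRing.eq_maximalIdeal hc,
        ← IsLocalRing.eq_maximalIdeal (span_p_isMaximal (p := p) (k := k))]
      exact Ideal.mem_span_singleton_self _
    rwa [Ideal.mem_comap, map_natCast] at h
  rw [← varpi_pow] at hp'
  have hw : Ideal.span {varpi p k n} ≤ M :=
    (Ideal.span_singleton_le_iff_mem _).2 (hM.isPrime.mem_of_pow_mem _ hp')
  refine ((Ideal.IsMaximal.eq_of_le ?_ hM.ne_top hw)).symm
  rw [← ker_res]
  exact RingHom.ker_isMaximal_of_surjective _ (res_surjective n)

instance instIsLocalRingWn (n : ℕ) : IsLocalRing (Wn p k n) := by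
  refine IsLocalRing.of_unique_max_ideal ⟨Ideal.span {varpi p k n}, ?_, maximal_eq n⟩
  rw [← ker_res]
  exact RingHom.ker_isMaximal_of_surjective _ (res_surjective n)

theorem maximalIdeal_eq (n : ℕ) :
    IsLocalRing.maximalIdeal (Wn p k n) = Ideal.span {varpi p k n} :=
  maximal_eq n _ (IsLocalRing.maximalIdeal.isMaximal _)

theorem not_isField (n : ℕ) : ¬IsField (Wn p k n) := by
  intro h
  have hb := IsLocalRing.isField_iff_maximalIdeal_eq.1 h
  rw [maximalIdeal_eq, Ideal.span_singleton_eq_bot] at hb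
  exact varpi_ne_zero n hb

instance instDVRWn (n : ℕ) : IsDiscreteValuationRing (Wn p k n) :=
  ((IsDiscreteValuationRing.TFAE (Wn p k n) (not_isField n)).out 0 4).2
    (show (IsLocalRing.maximalIdeal (Wn p k n)).IsPrincipal from ⟨⟨varpi p k n, maximalIdeal_eq n⟩⟩)

theorem varpi_prime (n : ℕ) : Prime (varpi p k n) := by
  rw [← Ideal.span_singleton_prime (varpi_ne_zero n), ← maximalIdeal_eq]
  exact (IsLocalRing.maximalIdeal.isMaximal _).isPrime

variable (p k) in
/-- The map from level `n` to level `m ≥ n`. -/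
noncomputable def trans {n m : ℕ} (h : n ≤ m) : Wn p k n →+* Wn p k m :=
  AdjoinRoot.lift (AdjoinRoot.of _) (varpi p k m ^ p ^ (m - n)) (by
    rw [eval₂_sub, eval₂_X_pow, eval₂_C, map_natCast, ← pow_mul, ← pow_add, Nat.sub_add_cancel h,
      varpi_pow, sub_self])

theorem trans_of {n m : ℕ} (h : n ≤ m) (x : WittVector p k) :
    trans p k h (AdjoinRoot.of _ x) = AdjoinRoot.of _ x := AdjoinRoot.lift_of _

theorem trans_varpi {n m : ℕ} (h : n ≤ m) :
    trans p k h (varpi p k n) = varpi p k m ^ p ^ (m - n) := AdjoinRoot.lift_root _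

theorem ringHom_ext {n : ℕ} {B : Type*} [CommRing B] {f g : Wn p k n →+* B}
    (h1 : ∀ x : WittVector p k, f (AdjoinRoot.of _ x) = g (AdjoinRoot.of _ x))
    (h2 : f (varpi p k n) = g (varpi p k n)) : f = g := by
  refine RingHom.ext fun x => ?_
  induction x using AdjoinRoot.induction_on with
  | ih q =>
    induction q using Polynomial.induction_on' with
    | add a b ha hb => simp only [map_add, ha, hb]
    | monomial i c =>
      rw [← C_mul_X_pow_eq_monomial, map_mul, map_pow, AdjoinRoot.mk_X, AdjoinRoot.mk_C, map_mul,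
        map_mul, map_pow, map_pow, h1, h2]

theorem trans_self (n : ℕ) : trans p k (le_refl n) = RingHom.id _ :=
  ringHom_ext (fun x => trans_of _ x) (by rw [trans_varpi, Nat.sub_self, pow_zero, pow_one]; rfl)

theorem trans_comp {n m l : ℕ} (h : n ≤ m) (h' : m ≤ l) :
    (trans p k h').comp (trans p k h) = trans p k (h.trans h') :=
  ringHom_ext (fun x => by rw [RingHom.comp_apply, trans_of, trans_of, trans_of]) (by
    rw [RingHom.comp_apply, trans_varpi, map_pow, trans_varpi, trans_varpi, ← pow_mul, ← pow_add]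
    congr 2
    omega)

/-- One level up every element is a `p`-th power modulo `p`. -/
theorem exists_root_mod (n : ℕ) (x : Wn p k n) :
    ∃ y : Wn p k (n + 1), (p : Wn p k (n + 1)) ∣ y ^ p - trans p k n.le_succ x := by
  set φ : Wn p k n →+* Wn p k (n + 1) := trans p k n.le_succ with hφ
  have hadd : ∀ a b : Wn p k n,
      (∃ y, (p : Wn p k (n + 1)) ∣ y ^ p - φ a) → (∃ y, (p : Wn p k (n + 1)) ∣ y ^ p - φ b) →
        ∃ y, (p : Wn p k (n + 1)) ∣ y ^ p - φ (a + b) := by
    rintro a b ⟨y, hy⟩ ⟨z, hz⟩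
    obtain ⟨r, hr⟩ := exists_add_pow_prime_eq hp.out y z
    refine ⟨y + z, ?_⟩
    rw [hr, map_add, show y ^ p + z ^ p + (p : Wn p k (n + 1)) * y * z * r - (φ a + φ b)
      = (y ^ p - φ a) + (z ^ p - φ b) + (p : Wn p k (n + 1)) * (y * z * r) by ring]
    exact dvd_add (dvd_add hy hz) (dvd_mul_right _ _)
  have hC : ∀ c : WittVector p k, ∃ y, (p : Wn p k (n + 1)) ∣ y ^ p - φ (AdjoinRoot.of _ c) := by
    intro c
    set a := WittVector.teichmuller p ((frobeniusEquiv k p).symm (WittVector.constantCoeff c))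
    refine ⟨AdjoinRoot.of _ a, ?_⟩
    rw [trans_of, ← map_pow, ← map_sub, ← map_natCast (AdjoinRoot.of (rootPoly p k (n + 1)))]
    refine map_dvd _ (Ideal.mem_span_singleton.1 ?_)
    rw [← WittVector.ker_constantCoeff, RingHom.mem_ker, map_sub, map_pow,
      show WittVector.constantCoeff a = (frobeniusEquiv k p).symm (WittVector.constantCoeff c) from
        WittVector.teichmuller_coeff_zero p _,
      frobeniusEquiv_symm_pow_p, sub_self]
  induction x using AdjoinRoot.induction_on with
  | ih q =>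
    induction q using Polynomial.induction_on' with
    | add a b ha hb => rw [map_add]; exact hadd _ _ ha hb
    | monomial i c =>
      obtain ⟨y, hy⟩ := hC c
      refine ⟨y * varpi p k (n + 1) ^ i, ?_⟩
      rw [← C_mul_X_pow_eq_monomial, map_mul, map_pow, AdjoinRoot.mk_X, AdjoinRoot.mk_C,
        map_mul φ, map_pow φ, hφ, trans_varpi, show n.succ - n = 1 by omega, pow_one, mul_pow, ← pow_mul,
        mul_comm i p, pow_mul, ← sub_mul]
      exact dvd_mul_of_dvd_left hy _

end Vale.Agent.P202.Perf.Base
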