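import Mathlib

/-!
# Ultrametric fields: congruences modulo `p`, roots of monic polynomials, embeddings

Preparations for finite extensions of a field with semiperfect ring of integers modulo `p`.
-/

namespace Vale.Agent.P202.Perf.Field

open Polynomial

section NormedField

variable {C : Type*} [NormedField C] [IsUltrametricDist C]

theorem norm_sub_le_max (a b : C) : ‖a - b‖ ≤ max ‖a‖ ‖b‖ := by
  simpa [sub_eq_add_neg, norm_neg] using IsUltrametricDist.norm_add_le_max a (-b)

theorem norm_sub_le_of (a b : C) {s : ℝ} (ha : ‖a‖ ≤ s) (hb : ‖b‖ ≤ s) : ‖a - b‖ ≤ s :=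
  (norm_sub_le_max a b).trans (max_le ha hb)

theorem norm_add_le_of (a b : C) {s : ℝ} (ha : ‖a‖ ≤ s) (hb : ‖b‖ ≤ s) : ‖a + b‖ ≤ s :=
  (IsUltrametricDist.norm_add_le_max a b).trans (max_le ha hb)

/-- The middle binomial terms. -/
theorem norm_add_pow_prime {p : ℕ} (hp : p.Prime) (A B : C) {s : ℝ} (hA : ‖A‖ ≤ s) (hB : ‖B‖ ≤ s) :
    ‖(A + B) ^ p - A ^ p - B ^ p‖ ≤ ‖(p : C)‖ * s ^ p := by
  have hs : 0 ≤ s := (norm_nonneg A).trans hA
  rw [add_pow, Finset.sum_range_succ, Nat.sub_self, pow_zero, mul_one, Nat.choose_self,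
    Nat.cast_one, mul_one, Finset.range_eq_Ico, Finset.sum_eq_sum_Ico_succ_bot hp.pos, pow_zero,
    one_mul, Nat.sub_zero, Nat.choose_zero_right, Nat.cast_one, mul_one]
  rw [show B ^ p + ∑ k ∈ Finset.Ico (0 + 1) p, A ^ k * B ^ (p - k) * (p.choose k : C) + A ^ p
      - A ^ p - B ^ p = ∑ k ∈ Finset.Ico (0 + 1) p, A ^ k * B ^ (p - k) * (p.choose k : C) by ring]
  refine IsUltrametricDist.norm_sum_le_of_forall_le_of_nonneg (by positivity) fun k hk => ?_
  rw [Finset.mem_Ico] at hk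
  obtain ⟨c, hc⟩ := hp.dvd_choose_self (k := k) (by omega) hk.2
  rw [hc, Nat.cast_mul, norm_mul, norm_mul, norm_mul, norm_pow, norm_pow,
    show s ^ p = s ^ k * s ^ (p - k) by rw [← pow_add, Nat.add_sub_cancel' hk.2.le]]
  calc ‖A‖ ^ k * ‖B‖ ^ (p - k) * (‖(p : C)‖ * ‖(c : C)‖)
      ≤ s ^ k * s ^ (p - k) * (‖(p : C)‖ * 1) := by
        gcongr
        exact IsUltrametricDist.norm_natCast_le_one C c
    _ = ‖(p : C)‖ * (s ^ k * s ^ (p - k)) := by ring

/-- `(∑ f) ^ p ≡ ∑ f ^ p` modulo `p`. -/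
theorem norm_sum_pow_prime {p : ℕ} (hp : p.Prime) {ι : Type*} (t : Finset ι) (f : ι → C) {s : ℝ}
    (hs : 0 ≤ s) (hf : ∀ i ∈ t, ‖f i‖ ≤ s) :
    ‖(∑ i ∈ t, f i) ^ p - ∑ i ∈ t, f i ^ p‖ ≤ ‖(p : C)‖ * s ^ p := by
  classical
  induction t using Finset.induction with
  | empty => simp [hp.ne_zero]; positivity
  | insert a t ha ih =>
    rw [Finset.sum_insert ha, Finset.sum_insert ha]
    have h1 := norm_add_pow_prime hp (f a) (∑ i ∈ t, f i) (hf a (Finset.mem_insert_self a t))
      (IsUltrametricDist.norm_sum_le_of_forall_le_of_nonneg hs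
        fun i hi => hf i (Finset.mem_insert_of_mem hi))
    have h2 := ih fun i hi => hf i (Finset.mem_insert_of_mem hi)
    rw [show (f a + ∑ i ∈ t, f i) ^ p - (f a ^ p + ∑ i ∈ t, f i ^ p)
      = ((f a + ∑ i ∈ t, f i) ^ p - f a ^ p - (∑ i ∈ t, f i) ^ p)
        + ((∑ i ∈ t, f i) ^ p - ∑ i ∈ t, f i ^ p) by ring]
    exact norm_add_le_of _ _ h1 h2

/-- `(A - B) ^ p ≡ A ^ p - B ^ p` modulo `p`. -/
theorem norm_sub_pow_prime {p : ℕ} (hp : p.Prime) (A B : C) (hA : ‖A‖ ≤ 1) (hB : ‖B‖ ≤ 1) :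
    ‖A ^ p - B ^ p - (A - B) ^ p‖ ≤ ‖(p : C)‖ := by
  have h := norm_add_pow_prime hp B (A - B) (s := 1) hB (norm_sub_le_of A B hA hB)
  rwa [add_sub_cancel, one_pow, mul_one] at h

/-- Coefficients of a product of `X - v i` with `‖v i‖ ≤ 1`. -/
theorem norm_coeff_nodal_le {ι : Type*} (t : Finset ι) (v : ι → C) (hv : ∀ i ∈ t, ‖v i‖ ≤ 1)
    (k : ℕ) : ‖(Lagrange.nodal t v).coeff k‖ ≤ 1 := by
  classical
  induction t using Finset.induction generalizing k with
  | empty =>
    rw [Lagrange.nodal_empty, coeff_one]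
    split_ifs <;> simp
  | insert a t ha ih =>
    have ih' := fun k => ih (fun i hi => hv i (Finset.mem_insert_of_mem hi)) k
    rw [Lagrange.nodal_insert_eq_nodal ha, sub_mul, coeff_sub, coeff_C_mul]
    refine norm_sub_le_of _ _ ?_ ?_
    · rcases k with _ | k
      · simp
      · rw [coeff_X_mul]
        exact ih' k
    · rw [norm_mul]
      exact mul_le_one₀ (hv a (Finset.mem_insert_self a t)) (norm_nonneg _) (ih' k)

/-- A polynomial with integral coefficients at an integral point. -/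
theorem norm_eval_le {F : C[X]} {s : ℝ} (hs : 0 ≤ s) (hF : ∀ k, ‖F.coeff k‖ ≤ s) {x : C}
    (hx : ‖x‖ ≤ 1) : ‖F.eval x‖ ≤ s := by
  rw [eval_eq_sum_range]
  refine IsUltrametricDist.norm_sum_le_of_forall_le_of_nonneg hs fun i _ => ?_
  rw [norm_mul, norm_pow]
  exact (mul_le_of_le_one_right (norm_nonneg _) (pow_le_one₀ (norm_nonneg _) hx)).trans (hF i)

/-- The roots of a monic polynomial with integral coefficients are integral. -/
theorem norm_root_le_one {F : C[X]} (hm : F.Monic) (hF : ∀ k, ‖F.coeff k‖ ≤ 1) {x : C}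
    (hx : F.IsRoot x) : ‖x‖ ≤ 1 := by
  by_contra h
  push Not at h
  have hn : 0 < F.natDegree := by
    by_contra h0
    rw [hm.natDegree_eq_zero.1 (by omega)] at hx
    simp at hx
  have h0 : F.eval x = 0 := hx
  rw [eval_eq_sum_range, Finset.sum_range_succ, hm.coeff_natDegree, one_mul] at h0
  have h1 : ‖x ^ F.natDegree‖ ≤ ‖x‖ ^ (F.natDegree - 1) := by
    rw [show x ^ F.natDegree = -(∑ i ∈ Finset.range F.natDegree, F.coeff i * x ^ i) by
      linear_combination h0, norm_neg]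
    refine IsUltrametricDist.norm_sum_le_of_forall_le_of_nonneg (by positivity) fun i hi => ?_
    rw [Finset.mem_range] at hi
    rw [norm_mul, norm_pow]
    exact (mul_le_of_le_one_left (by positivity) (hF i)).trans
      (pow_le_pow_right₀ h.le (by omega))
  rw [norm_pow] at h1
  exact absurd h1 (not_le.2 (pow_lt_pow_right₀ h (by omega)))

end NormedField

section Embeddings

variable {K : Type*} [NontriviallyNormedField K] [CompleteSpace K] [IsUltrametricDist K]
variable {C : Type*} [NormedField C] [IsUltrametricDist C] [NormedAlgebra K C]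
  [Algebra.IsAlgebraic K C]

omit [IsUltrametricDist C] in
theorem norm_eq_of_minpoly_eq {x y : C} (h : minpoly K x = minpoly K y) : ‖x‖ = ‖y‖ := by
  rw [NormedAlgebra.norm_eq_spectralNorm K, NormedAlgebra.norm_eq_spectralNorm K]
  unfold spectralNorm
  rw [h]

theorem norm_algEquiv {N : IntermediateField K C} (σ : C ≃ₐ[N] C) (x : C) : ‖σ x‖ = ‖x‖ := by
  refine norm_eq_of_minpoly_eq (K := K) ?_
  exact minpoly.algEquiv_eq (σ.restrictScalars K) x

variable {N : IntermediateField K C} {M : IntermediateField N C}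

theorem norm_algHom (τ : M →ₐ[N] C) (a : M) : ‖τ a‖ = ‖(a : C)‖ := by
  refine norm_eq_of_minpoly_eq (K := K) ?_
  have h1 := minpoly.algHom_eq (τ.restrictScalars K) (τ.restrictScalars K).injective a
  have h2 := minpoly.algHom_eq (M.val.restrictScalars K) (M.val.restrictScalars K).injective a
  exact h1.trans h2.symm

variable [IsAlgClosed C] [CharZero K]

/-- A root closer to `z` than all its conjugates over `B` lies in every larger field containing
`z`. -/
theorem mem_of_near {B : IntermediateField K C} (hB : B ≤ N) {z x : C} (hz : z ∈ N)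
    (h : ∀ x', IsConjRoot B x x' → x' ≠ x → ‖x - z‖ < ‖x - x'‖) : x ∈ N := by
  have : IsAlgClosure K C := ⟨inferInstance, inferInstance⟩
  have : Normal K C := IsAlgClosure.normal K C
  by_contra hx
  have hsep : IsSeparable N x := by
    have : IsSeparable K x := Algebra.IsSeparable.isSeparable K x
    exact this.tower_top N
  obtain ⟨x', hne, hconj⟩ := (notMem_iff_exists_ne_and_isConjRoot hsep
      (IsAlgClosed.splits _)).1 (show x ∉ (⊥ : Subalgebra N C) from fun hm => hx (by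
        obtain ⟨a, ha⟩ := Algebra.mem_bot.1 hm
        rw [← ha]
        exact a.2))
  obtain ⟨σ, hσ⟩ := isConjRoot_iff_exists_algEquiv.1 hconj.symm
  let σ' : C ≃ₐ[B] C :=
    AlgEquiv.ofRingEquiv (f := σ.toRingEquiv) fun b => σ.commutes ⟨b, hB b.2⟩
  have hK : IsConjRoot B x x' := by
    rw [← hσ]
    exact (minpoly.algEquiv_eq σ' x).symm
  have h3 := h x' hK (Ne.symm hne)
  have hz' : σ z = z := σ.commutes ⟨z, hz⟩
  have h4 : ‖x' - z‖ = ‖x - z‖ := by
    conv_lhs => rw [← hσ, ← hz', ← map_sub, norm_algEquiv]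
  have h5 : ‖x - x'‖ ≤ ‖x - z‖ := by
    rw [show x - x' = (x - z) - (x' - z) by ring]
    exact norm_sub_le_of _ _ le_rfl h4.le
  exact absurd h3 (not_lt.2 h5)

end Embeddings

end Vale.Agent.P202.Perf.Field
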