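import Vale.Agent.P202.Perf.FieldBase

/-!
# Deep roots over a field with semiperfect integers

If the minimal polynomial of `w` over `N` has derivative of norm `≥ R` at `w`, with `‖p‖ < R * R`,
then the `p`-th root of that polynomial generates the same field and has derivative of norm
`≥ R ^ (1 / p)`.
-/

namespace Vale.Agent.P202.Perf.Field

open Polynomial IntermediateField

variable {K : Type*} [NontriviallyNormedField K] [CompleteSpace K] [IsUltrametricDist K] [CharZero K]
variable {C : Type*} [NormedField C] [IsUltrametricDist C] [NormedAlgebra K C]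
  [Algebra.IsAlgebraic K C] [IsAlgClosed C]

/-- Every integral element of `N` is a `p`-th power modulo `p`. -/
def Semi (p : ℕ) (N : IntermediateField K C) : Prop :=
  ∀ a ∈ N, ‖a‖ ≤ 1 → ∃ b ∈ N, ‖a - b ^ p‖ ≤ ‖(p : C)‖

/-- The norm of the derivative of the minimal polynomial. -/
noncomputable def der (N : IntermediateField K C) (z : C) : ℝ :=
  ‖aeval z (derivative (minpoly N z))‖

omit [CompleteSpace K] [IsUltrametricDist K] [CharZero K] [IsUltrametricDist C] [IsAlgClosed C] in
theorem isInt (N : IntermediateField K C) (z : C) : IsIntegral N z :=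
  IsIntegral.tower_top (Algebra.IsIntegral.isIntegral (R := K) z)

variable {N : IntermediateField K C}

/-- The conjugates of `a` are the images under the embeddings of `N(a)`. -/
theorem minpoly_map_eq_nodal {M : IntermediateField N C} [FiniteDimensional N M] (a : M)
    (ha : N⟮(a : C)⟯ = M) :
    (minpoly N (a : C)).map (algebraMap N C)
        = Lagrange.nodal Finset.univ (fun τ : M →ₐ[N] C => τ a)
      ∧ Function.Injective (fun τ : M →ₐ[N] C => τ a)
      ∧ Fintype.card (M →ₐ[N] C) = (minpoly N (a : C)).natDegree := by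
  have : CharZero C := charZero_of_injective_algebraMap (algebraMap K C).injective
  have : CharZero N := charZero_of_injective_algebraMap (algebraMap K N).injective
  have hint := isInt N (a : C)
  have hcard : Fintype.card (M →ₐ[N] C) = (minpoly N (a : C)).natDegree := by
    rw [AlgHom.card, ← adjoin.finrank hint, ha]
  have hinj : Function.Injective (fun τ : M →ₐ[N] C => τ a) := by
    intro τ τ' h
    refine algHom_ext_of_eq_adjoin N ha.symm ?_
    intro x hx
    rw [Set.mem_singleton_iff] at hx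
    subst hx
    exact h
  refine ⟨?_, hinj, hcard⟩
  refine Polynomial.eq_of_degree_sub_lt_of_eval_index_eq (s := Finset.univ) hinj.injOn ?_ ?_
  · have h1 := degree_sub_lt_left (p := (minpoly N (a : C)).map (algebraMap N C))
      (q := Lagrange.nodal Finset.univ (fun τ : M →ₐ[N] C => τ a)) ?_ ?_ ?_
    · refine h1.trans_eq ?_
      rw [degree_eq_natDegree ((minpoly.monic hint).map _).ne_zero, natDegree_map,
        Finset.card_univ, hcard]
    · rw [degree_eq_natDegree ((minpoly.monic hint).map _).ne_zero, natDegree_map,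
        Lagrange.degree_nodal, Finset.card_univ, hcard]
    · exact ((minpoly.monic hint).map _).ne_zero
    · rw [((minpoly.monic hint).map _).leadingCoeff, Lagrange.nodal_monic.leadingCoeff]
  · intro τ hτ
    refine Eq.trans ?_ (Lagrange.eval_nodal_at_node (v := fun τ : M →ₐ[N] C => τ a) hτ).symm
    rw [eval_map_algebraMap,
      show minpoly N (a : C) = minpoly N (τ a) from
        (minpoly.algHom_eq M.val M.val.injective a).trans
          (minpoly.algHom_eq τ τ.injective a).symm]
    exact minpoly.aeval N _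

/-- An integral element has an integral minimal polynomial. -/
theorem norm_coeff_minpoly_le {z : C} (hz : ‖z‖ ≤ 1) (k : ℕ) :
    ‖((minpoly N z).coeff k : C)‖ ≤ 1 := by
  have := adjoin.finiteDimensional (isInt N z)
  have h := (minpoly_map_eq_nodal (M := N⟮z⟯) (AdjoinSimple.gen N z) rfl).1
  rw [AdjoinSimple.coe_gen] at h
  have h2 := congrArg (fun F : C[X] => F.coeff k) h
  simp only [coeff_map] at h2
  rw [show ((minpoly N z).coeff k : C) = algebraMap N C ((minpoly N z).coeff k) from rfl, h2]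
  exact norm_coeff_nodal_le _ _ (fun τ _ => by rw [norm_algHom]; exact hz) k

theorem der_le_one {z : C} (hz : ‖z‖ ≤ 1) : der N z ≤ 1 := by
  unfold der
  rw [← eval_map_algebraMap]
  refine norm_eval_le zero_le_one (fun k => ?_) hz
  rw [coeff_map, coeff_derivative, map_mul, norm_mul]
  refine mul_le_one₀ (norm_coeff_minpoly_le hz _) (norm_nonneg _) ?_
  rw [show ((k : N) + 1) = ((k + 1 : ℕ) : N) by push_cast; rfl, map_natCast]
  exact IsUltrametricDist.norm_natCast_le_one C _

/-- The derivative at a root is the product of the differences. -/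
theorem der_eq_prod {M : IntermediateField N C} [FiniteDimensional N M] (a : M)
    (ha : N⟮(a : C)⟯ = M) [DecidableEq (M →ₐ[N] C)] (τ : M →ₐ[N] C) :
    der N (a : C) = ∏ σ ∈ Finset.univ.erase τ, ‖τ a - σ a‖ := by
  obtain ⟨hmap, -, -⟩ := minpoly_map_eq_nodal a ha
  have h2 : (∏ σ ∈ Finset.univ.erase τ, (τ a - σ a))
      = (derivative (Lagrange.nodal Finset.univ (fun σ : M →ₐ[N] C => σ a))).eval (τ a) := by
    refine Eq.trans ?_ (Lagrange.eval_nodal_derivative_eval_node_eq
      (v := fun σ : M →ₐ[N] C => σ a) (Finset.mem_univ τ)).symm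
    rw [Lagrange.eval_nodal]
  rw [← norm_prod, h2, ← hmap, derivative_map, eval_map_algebraMap, aeval_algHom_apply, norm_algHom]
  unfold der
  rw [show (a : C) = M.val a from rfl, aeval_algHom_apply]
  rfl

/-- Two conjugates of an integral element are at least `der` apart. -/
theorem der_le_norm_sub {M : IntermediateField N C} [FiniteDimensional N M] (a : M)
    (ha : N⟮(a : C)⟯ = M) (h1 : ‖(a : C)‖ ≤ 1) {τ σ : M →ₐ[N] C} (hne : σ ≠ τ) :
    der N (a : C) ≤ ‖τ a - σ a‖ := by
  classical
  rw [der_eq_prod a ha τ,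
    ← Finset.mul_prod_erase _ _ (Finset.mem_erase.2 ⟨hne, Finset.mem_univ σ⟩)]
  refine mul_le_of_le_one_right (norm_nonneg _) (Finset.prod_le_one (fun _ _ => norm_nonneg _) ?_)
  intro ρ _
  exact norm_sub_le_of _ _ (by rw [norm_algHom]; exact h1) (by rw [norm_algHom]; exact h1)

/-- Distinct conjugates are at least `der` apart. -/
theorem der_le_of_isConjRoot {x x' : C} (hx : ‖x‖ ≤ 1) (h : IsConjRoot N x x') (hne : x' ≠ x) :
    der N x ≤ ‖x - x'‖ := by
  have := adjoin.finiteDimensional (isInt N x)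
  have hroot : aeval x' (minpoly N x) = 0 := by
    rw [show minpoly N x = minpoly N x' from h]
    exact minpoly.aeval N x'
  have hr : minpoly N (AdjoinSimple.gen N x) = minpoly N x := by
    rw [← minpoly.algHom_eq (N⟮x⟯).val (N⟮x⟯).val.injective]
    rfl
  let σ : N⟮x⟯ →ₐ[N] C := (adjoin.powerBasis (isInt N x)).lift x' (by
    simpa [adjoin.powerBasis_gen, hr] using hroot)
  have hσ : σ (AdjoinSimple.gen N x) = x' :=
    PowerBasis.lift_gen (adjoin.powerBasis (isInt N x)) _ _
  have hne' : σ ≠ (N⟮x⟯).val := by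
    intro he
    rw [he] at hσ
    exact hne hσ.symm
  have h2 := der_le_norm_sub (AdjoinSimple.gen N x) rfl hx hne'
  rw [hσ] at h2
  exact h2

omit [CompleteSpace K] [IsUltrametricDist K] [CharZero K] [IsUltrametricDist C]
  [Algebra.IsAlgebraic K C] [IsAlgClosed C] in
theorem algebraMap_coe (n : N) : algebraMap N C n = (n : C) := rfl

/-- The deep root. -/
theorem deep {p : ℕ} (hp : p.Prime) (hN : Semi p N) {w : C} (hw : ‖w‖ ≤ 1) {R : ℝ} (hR0 : 0 < R)
    (hR : R ≤ der N w) (hpR : ‖(p : C)‖ < R * R) :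
    ∃ z : C, ‖z‖ ≤ 1 ∧ N⟮z⟯ = N⟮w⟯ ∧ der N z ^ p = der N w ∧ ‖w - z ^ p‖ ≤ ‖(p : C)‖ / R := by
  classical
  have : CharZero C := charZero_of_injective_algebraMap (algebraMap K C).injective
  have : IsAlgClosure K C := ⟨inferInstance, inferInstance⟩
  have : Normal K C := IsAlgClosure.normal K C
  have hint := isInt N w
  have hp1 : ‖(p : C)‖ ≤ 1 := IsUltrametricDist.norm_natCast_le_one C p
  set f := minpoly N w with hf
  set d := f.natDegree with hd
  have hd0 : 0 < d := minpoly.natDegree_pos hint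
  have hb : ∀ i, ∃ b : N, ‖(f.coeff i : C) - (b : C) ^ p‖ ≤ ‖(p : C)‖ := fun i => by
    obtain ⟨b, hb, hb'⟩ := hN _ (f.coeff i).2 (norm_coeff_minpoly_le hw i)
    exact ⟨⟨b, hb⟩, hb'⟩
  choose β hβ using hb
  have hβ1 : ∀ i, ‖(β i : C)‖ ≤ 1 := fun i => by
    refine (pow_le_one_iff_of_nonneg (norm_nonneg _) hp.ne_zero).1 ?_
    rw [← norm_pow, show (β i : C) ^ p = (f.coeff i : C) - ((f.coeff i : C) - (β i : C) ^ p) by ring]
    exact norm_sub_le_of _ _ (norm_coeff_minpoly_le hw i) ((hβ i).trans hp1)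
  set G : N[X] := X ^ d + ∑ i ∈ Finset.range d, Polynomial.C (β i) * X ^ i with hG
  have hGdeg : (∑ i ∈ Finset.range d, Polynomial.C (β i) * X ^ i : N[X]).degree < d := by
    refine lt_of_le_of_lt (degree_sum_le _ _) ((Finset.sup_lt_iff (by simp)).2 fun i hi => ?_)
    exact lt_of_le_of_lt (degree_C_mul_X_pow_le i (β i)) (by simpa using Finset.mem_range.1 hi)
  have hGm : G.Monic := monic_X_pow_add hGdeg
  have hGn : G.natDegree = d := by
    refine natDegree_eq_of_degree_eq_some ?_
    rw [hG, degree_add_eq_left_of_degree_lt (by rwa [degree_X_pow]), degree_X_pow]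
  obtain ⟨z0, hz0⟩ := IsAlgClosed.exists_aeval_eq_zero C G
    (by rw [degree_eq_natDegree hGm.ne_zero, hGn]; exact_mod_cast hd0.ne')
  have hGz : ∀ z : C, aeval z G = z ^ d + ∑ i ∈ Finset.range d, (β i : C) * z ^ i := fun z => by
    simp [hG, map_sum]
  have hroot1 : ∀ z : C, aeval z G = 0 → ‖z‖ ≤ 1 := by
    intro z hz
    refine norm_root_le_one (hGm.map (algebraMap N C)) (fun k => ?_)
      (by rw [IsRoot.def, eval_map_algebraMap]; exact hz)
    rw [coeff_map, hG, coeff_add, map_add, finsetSum_coeff, map_sum]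
    refine norm_add_le_of _ _ ?_ ?_
    · rw [coeff_X_pow]
      split_ifs <;> simp
    · refine IsUltrametricDist.norm_sum_le_of_forall_le_of_nonneg zero_le_one fun i _ => ?_
      rw [coeff_C_mul_X_pow]
      split_ifs
      · exact hβ1 i
      · simp
  have happrox : ∀ z : C, aeval z G = 0 → ‖aeval (z ^ p) f‖ ≤ ‖(p : C)‖ := by
    intro z hz
    have hz1 := hroot1 z hz
    set b : ℕ → C := fun i => if i < d then (β i : C) else 1 with hbdef
    have hb0 : (∑ i ∈ Finset.range (d + 1), b i * z ^ i) = 0 := by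
      rw [← hz, hGz, Finset.sum_range_succ, hbdef]
      simp only [lt_irrefl, ↓reduceIte, one_mul]
      rw [add_comm]
      congr 1
      exact Finset.sum_congr rfl fun i hi => by rw [if_pos (Finset.mem_range.1 hi)]
    have h1 := norm_sum_pow_prime hp (Finset.range (d + 1)) (fun i => b i * z ^ i) zero_le_one
      fun i _ => by
        rw [norm_mul, norm_pow]
        refine mul_le_one₀ ?_ (by positivity) (pow_le_one₀ (norm_nonneg _) hz1)
        simp only [hbdef]
        split_ifs
        · exact hβ1 i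
        · simp
    rw [hb0, zero_pow hp.ne_zero, zero_sub, norm_neg, one_pow, mul_one] at h1
    rw [aeval_eq_sum_range, ← hd,
      show (∑ i ∈ Finset.range (d + 1), f.coeff i • (z ^ p) ^ i)
        = (∑ i ∈ Finset.range (d + 1), ((f.coeff i : C) - b i ^ p) * (z ^ p) ^ i)
          + ∑ i ∈ Finset.range (d + 1), (b i * z ^ i) ^ p by
        rw [← Finset.sum_add_distrib]
        refine Finset.sum_congr rfl fun i _ => ?_
        rw [Algebra.smul_def, algebraMap_coe, mul_pow, ← pow_mul, ← pow_mul, mul_comm p i]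
        ring]
    refine norm_add_le_of _ _ ?_ h1
    refine IsUltrametricDist.norm_sum_le_of_forall_le_of_nonneg (norm_nonneg _) fun i hi => ?_
    rw [norm_mul, norm_pow, norm_pow]
    refine (mul_le_of_le_one_right (norm_nonneg _) (pow_le_one₀ (by positivity)
      (pow_le_one₀ (norm_nonneg _) hz1))).trans ?_
    simp only [hbdef]
    split_ifs with hid
    · exact hβ i
    · have : i = d := by rw [Finset.mem_range] at hi; omega
      simp [this, hd, (minpoly.monic hint).coeff_natDegree, hf]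
  -- the root of `f` nearest to `z0 ^ p`
  have := adjoin.finiteDimensional hint
  set g := AdjoinSimple.gen N w
  obtain ⟨hmap, -, -⟩ := minpoly_map_eq_nodal g rfl
  obtain ⟨τ0, -, hτ0⟩ := Finset.exists_min_image Finset.univ
    (fun τ : N⟮w⟯ →ₐ[N] C => ‖z0 ^ p - τ g‖) ⟨(N⟮w⟯).val, Finset.mem_univ _⟩
  have hclose : ‖z0 ^ p - τ0 g‖ ≤ ‖(p : C)‖ / R := by
    rw [le_div_iff₀ hR0]
    refine le_trans ?_ (happrox z0 hz0)
    have hmap' : f.map (algebraMap N C)
        = Lagrange.nodal Finset.univ (fun τ : N⟮w⟯ →ₐ[N] C => τ g) := hmap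
    rw [← eval_map_algebraMap, hmap', Lagrange.eval_nodal, norm_prod,
      ← Finset.mul_prod_erase _ _ (Finset.mem_univ τ0)]
    refine mul_le_mul_of_nonneg_left (hR.trans ?_) (norm_nonneg _)
    have hder : der N w = ∏ σ ∈ Finset.univ.erase τ0, ‖τ0 g - σ g‖ := der_eq_prod g rfl τ0
    rw [hder]
    refine Finset.prod_le_prod (fun _ _ => norm_nonneg _) fun σ _ => ?_
    rw [show τ0 g - σ g = (z0 ^ p - σ g) - (z0 ^ p - τ0 g) by ring]
    exact norm_sub_le_of _ _ le_rfl (hτ0 σ (Finset.mem_univ σ))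
  obtain ⟨s, hs⟩ : ∃ s : C ≃ₐ[N] C, s (τ0 g) = w := by
    refine isConjRoot_iff_exists_algEquiv.1 ?_
    exact (minpoly.algHom_eq (N⟮w⟯).val (N⟮w⟯).val.injective g).trans
      (minpoly.algHom_eq τ0 τ0.injective g).symm
  set z := s z0 with hzdef
  have hz : aeval z G = 0 := by rw [hzdef, aeval_algHom_apply, hz0, map_zero]
  have hz1 := hroot1 z hz
  have hwz : ‖w - z ^ p‖ ≤ ‖(p : C)‖ / R := by
    rw [← hs, hzdef, ← map_pow, ← map_sub, norm_algEquiv, norm_sub_rev]
    exact hclose
  have hpR' : ‖(p : C)‖ / R < R := by rwa [div_lt_iff₀ hR0]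
  -- Krasner
  have hle : N⟮w⟯ ≤ N⟮z⟯ := by
    rw [adjoin_simple_le_iff]
    show w ∈ (N⟮z⟯).restrictScalars K
    refine mem_of_near (B := N) (fun x hx => (N⟮z⟯).algebraMap_mem ⟨x, hx⟩) (z := z ^ p)
      (pow_mem (mem_adjoin_simple_self N z) p) fun x' hx' hne => ?_
    exact (hwz.trans_lt hpR').trans_le (hR.trans (der_le_of_isConjRoot hw hx' hne))
  have hintz := isInt N z
  have := adjoin.finiteDimensional hintz
  have hdeg : (minpoly N z).natDegree ≤ d := by
    rw [← hGn]
    exact natDegree_le_of_dvd (minpoly.dvd N z hz) hGm.ne_zero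
  have heq : N⟮w⟯ = N⟮z⟯ := IntermediateField.eq_of_le_of_finrank_le hle
    (by rw [adjoin.finrank hintz, adjoin.finrank hint]; exact hdeg)
  refine ⟨z, hz1, heq.symm, ?_, hwz⟩
  -- the derivatives
  have hzmem : z ∈ N⟮w⟯ := heq ▸ mem_adjoin_simple_self N z
  set zz : N⟮w⟯ := ⟨z, hzmem⟩
  have hzz : N⟮(zz : C)⟯ = N⟮w⟯ := heq.symm
  rw [show der N z = der N (zz : C) from rfl, show der N w = der N (g : C) from rfl,
    der_eq_prod zz hzz (N⟮w⟯).val, der_eq_prod g rfl (N⟮w⟯).val, ← Finset.prod_pow]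
  refine Finset.prod_congr rfl fun σ hσ => ?_
  set τ := (N⟮w⟯).val
  have hτσ : ∀ ρ : N⟮w⟯ →ₐ[N] C, ‖ρ g - ρ zz ^ p‖ ≤ ‖(p : C)‖ / R := fun ρ => by
    rw [← map_pow, ← map_sub, norm_algHom]
    exact hwz
  have hsep : R ≤ ‖τ g - σ g‖ :=
    hR.trans (der_le_norm_sub g rfl hw (Finset.ne_of_mem_erase hσ))
  have hpR'' : ‖(p : C)‖ ≤ ‖(p : C)‖ / R := by
    refine le_div_self (norm_nonneg _) hR0 (hR.trans ?_)
    exact der_le_one hw
  rw [← norm_pow]
  have hd1 := norm_sub_pow_prime hp (τ zz) (σ zz) (by rw [norm_algHom]; exact hz1)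
    (by rw [norm_algHom]; exact hz1)
  have h2 : ‖(τ zz - σ zz) ^ p - (τ g - σ g)‖ < ‖τ g - σ g‖ := by
    refine lt_of_le_of_lt ?_ (hpR'.trans_le hsep)
    rw [show (τ zz - σ zz) ^ p - (τ g - σ g)
      = -((τ zz ^ p - σ zz ^ p - (τ zz - σ zz) ^ p) + ((τ g - τ zz ^ p) - (σ g - σ zz ^ p))) by
        ring, norm_neg]
    exact norm_add_le_of _ _ (hd1.trans hpR'') (norm_sub_le_of _ _ (hτσ τ) (hτσ σ))
  rw [show (τ zz - σ zz) ^ p = ((τ zz - σ zz) ^ p - (τ g - σ g)) + (τ g - σ g) by ring]
  exact IsUltrametricDist.norm_add_eq_max_of_norm_ne_norm h2.ne |>.trans (max_eq_right h2.le)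

end Vale.Agent.P202.Perf.Field
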