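import Vale.Agent.P202.Perf.Points

/-!
# The completed residue field of a point

The completion of `Frac (O ⧸ supp v)` is a complete nonarchimedean field in which `|p| = ρ` and
every element of absolute value at most one is a `p`-th power up to `|p|`.
-/

namespace Vale.Agent.P202.Perf

open Topology Filter
open scoped NNReal

variable {O : Type*} [CommRing O] {p : ℕ} {ρ : ℝ≥0}

namespace Point

variable (w : Point O p ρ)

/-- The residue domain. -/
abbrev Quot' : Type _ := O ⧸ w.toVal.supp

/-- The uncompleted residue field. -/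
abbrev Frac' : Type _ := FractionRing w.Quot'

theorem nonZeroDivisors_le :
    nonZeroDivisors w.Quot' ≤ (w.toVal.onQuot le_rfl).supp.primeCompl := by
  intro x hx h
  rw [SetLike.mem_coe, Valuation.supp_quot_supp] at h
  exact nonZeroDivisors.ne_zero hx (by simpa using h)

/-- The valuation on the residue field. -/
noncomputable def fracVal : Valuation w.Frac' ℝ≥0 :=
  (w.toVal.onQuot le_rfl).extendToLocalization w.nonZeroDivisors_le w.Frac'

theorem fracVal_mk (a : O) :
    w.fracVal (algebraMap w.Quot' w.Frac' (Ideal.Quotient.mk _ a)) = w.toVal a :=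
  Valuation.extendToLocalization_apply_map_apply _ _ _ _

/-- The absolute value of a point on its residue field. -/
noncomputable def absVal : AbsoluteValue w.Frac' ℝ where
  toFun x := w.fracVal x
  map_mul' x y := by simp
  nonneg' x := (w.fracVal x).coe_nonneg
  eq_zero' x := by simp
  add_le' x y := by
    refine le_trans (NNReal.coe_le_coe.2 (w.fracVal.map_add x y)) ?_
    rw [NNReal.coe_max]
    exact max_le (le_add_of_nonneg_right (NNReal.coe_nonneg _))
      (le_add_of_nonneg_left (NNReal.coe_nonneg _))

/-- The completed residue field. -/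
abbrev ResField : Type _ := w.absVal.Completion

/-- The evaluation at a point. -/
noncomputable def toResField : O →+* w.ResField :=
  UniformSpace.Completion.coeRingHom.comp <|
    (WithAbs.equiv w.absVal).symm.toRingHom.comp <|
      (algebraMap w.Quot' w.Frac').comp (Ideal.Quotient.mk _)

theorem norm_coe_eq (x : w.Frac') :
    ‖((WithAbs.toAbs w.absVal x : WithAbs w.absVal) : w.ResField)‖ = w.fracVal x := by
  rw [UniformSpace.Completion.norm_coe]
  rfl

theorem norm_toResField (a : O) : ‖w.toResField a‖ = w.toVal a := by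
  rw [← w.fracVal_mk a, ← w.norm_coe_eq]
  rfl

theorem norm_natCast : ‖(p : w.ResField)‖ = ρ := by
  rw [← map_natCast w.toResField, norm_toResField, w.map_p]

instance : IsUltrametricDist w.ResField := by
  refine IsUltrametricDist.isUltrametricDist_of_forall_norm_add_le_max_norm fun x y => ?_
  induction x, y using UniformSpace.Completion.induction_on₂ with
  | hp => exact isClosed_le (by fun_prop) (by fun_prop)
  | ih a b =>
    rw [← UniformSpace.Completion.coe_add, UniformSpace.Completion.norm_coe,
      UniformSpace.Completion.norm_coe, UniformSpace.Completion.norm_coe]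
    show (w.fracVal (a.ofAbs + b.ofAbs) : ℝ) ≤
      max (w.fracVal a.ofAbs : ℝ) (w.fracVal b.ofAbs : ℝ)
    exact_mod_cast w.fracVal.map_add _ _

variable [Fact (Nat.Prime p)] [Fact ¬IsUnit (p : O)] [IsAdicComplete (Ideal.span {(p : O)}) O]

/-- Frobenius is onto modulo `p` in the completed residue field. -/
theorem exists_norm_sub_pow_le (hρ0 : 0 < ρ) (hρ1 : ρ < 1)
    (hF : Function.Surjective (frobenius (ModP O p) p)) {π : PreTilt O p}
    (hπ : π.untilt = (p : O)) (x : w.ResField) (hx : ‖x‖ ≤ 1) :
    ∃ y : w.ResField, ‖y‖ ≤ 1 ∧ ‖x - y ^ p‖ ≤ ρ := by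
  have hρR : (0 : ℝ) < ρ := hρ0
  obtain ⟨z, hz⟩ : ∃ z : w.Frac',
      ‖x - ((WithAbs.toAbs w.absVal z : WithAbs w.absVal) : w.ResField)‖ < ρ := by
    obtain ⟨z, hz⟩ := (UniformSpace.Completion.denseRange_coe (α := WithAbs w.absVal)).exists_dist_lt
      x hρR
    exact ⟨z.ofAbs, by rwa [dist_eq_norm] at hz⟩
  obtain ⟨a', b', hb', rfl⟩ := IsFractionRing.div_surjective (A := w.Quot') z
  obtain ⟨a, rfl⟩ := Ideal.Quotient.mk_surjective a'
  obtain ⟨b, rfl⟩ := Ideal.Quotient.mk_surjective b'
  set e := w.toResField with he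
  have hcoe : ((WithAbs.toAbs w.absVal (algebraMap w.Quot' w.Frac' (Ideal.Quotient.mk _ a) /
      algebraMap w.Quot' w.Frac' (Ideal.Quotient.mk _ b)) : WithAbs w.absVal) : w.ResField)
      = e a / e b := by
    rw [WithAbs.toAbs_div]
    exact map_div₀ (UniformSpace.Completion.coeRingHom (α := WithAbs w.absVal)) _ _
  rw [hcoe] at hz
  have hb0 : 0 < w.toVal b := by
    refine pos_iff_ne_zero.2 fun h => nonZeroDivisors.ne_zero hb' ?_
    exact Ideal.Quotient.eq_zero_iff_mem.2 h
  have hbR : (0 : ℝ) < w.toVal b := hb0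
  have hab : w.toVal a ≤ w.toVal b := by
    have h1 : ‖e a / e b‖ ≤ 1 := by
      have := IsUltrametricDist.norm_add_le_max x (-(x - e a / e b))
      rw [← sub_eq_add_neg, sub_sub_cancel, norm_neg] at this
      exact this.trans (max_le hx (hz.le.trans (NNReal.coe_le_one.2 hρ1.le)))
    rw [norm_div, he, norm_toResField, norm_toResField, div_le_one hbR] at h1
    exact_mod_cast h1
  obtain ⟨m, hm⟩ := exists_pow_lt_of_lt_one hb0 hρ1
  have hpv : w.toVal (p : O) < 1 := by rw [w.map_p]; exact hρ1
  obtain ⟨g, hg⟩ := exists_untilt_approx' hF π hπ m a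
  obtain ⟨k, hk⟩ := exists_untilt_approx' hF π hπ m b
  obtain ⟨hg1, hg2, -⟩ := hg ℝ≥0 w.toVal w.le_one hpv
  obtain ⟨hk1, -, hk3⟩ := hk ℝ≥0 w.toVal w.le_one hpv
  rw [w.map_p] at hg1 hg2 hk1 hk3
  have hkb : w.toVal k.untilt = w.toVal b := hk3 hm
  have hgb : w.toVal g.untilt ≤ w.toVal b :=
    (le_max_left _ _).trans (hg2 ▸ max_le hab hm.le)
  have hga : w.toVal (a - g.untilt) ≤ ρ * w.toVal b :=
    hg1.trans (mul_le_mul_right (max_le hab hm.le) _)
  have hkb' : w.toVal (k.untilt - b) ≤ ρ * w.toVal b := by
    rw [Valuation.map_sub_swap]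
    exact hk1.trans (mul_le_mul_right (max_le le_rfl hm.le) _)
  set r := fun c : PreTilt O p => ((frobeniusEquiv (PreTilt O p) p).symm c).untilt with hr
  have hroot : ∀ c : PreTilt O p, r c ^ p = c.untilt := fun c => by
    have h := PreTilt.untilt_iterate_frobeniusEquiv_symm_pow c 1
    rwa [pow_one, Function.iterate_one] at h
  have heb : e b ≠ 0 := fun h => by
    have := w.norm_toResField b
    rw [← he, h, norm_zero] at this
    exact hbR.ne this
  have hek : e k.untilt ≠ 0 := fun h => by
    have := w.norm_toResField k.untilt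
    rw [← he, h, norm_zero, hkb] at this
    exact hbR.ne this
  refine ⟨e (r g) / e (r k), ?_, ?_⟩
  · have h : ‖e (r g) / e (r k)‖ ^ p ≤ 1 := by
      rw [← norm_pow, div_pow, ← map_pow e, ← map_pow e, hroot, hroot, norm_div, he, norm_toResField,
        norm_toResField, hkb, div_le_one hbR]
      exact_mod_cast hgb
    exact (pow_le_one_iff_of_nonneg (norm_nonneg _) (Fact.out : p.Prime).ne_zero).1 h
  · rw [div_pow, ← map_pow e, ← map_pow e, hroot, hroot]
    have hdec : x - e g.untilt / e k.untilt = (x - e a / e b)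
        + (e (a - g.untilt) / e b + e g.untilt * e (k.untilt - b) / (e b * e k.untilt)) := by
      rw [map_sub, map_sub]
      field_simp
      ring
    rw [hdec]
    refine (IsUltrametricDist.norm_add_le_max _ _).trans (max_le hz.le ?_)
    refine (IsUltrametricDist.norm_add_le_max _ _).trans (max_le ?_ ?_)
    · rw [norm_div, he, norm_toResField, norm_toResField, div_le_iff₀ hbR]
      exact_mod_cast hga
    · rw [norm_div, norm_mul, norm_mul, he, norm_toResField, norm_toResField, norm_toResField,
        norm_toResField, hkb, div_le_iff₀ (mul_pos hbR hbR)]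
      have := mul_le_mul' hgb hkb'
      calc (w.toVal g.untilt : ℝ) * w.toVal (k.untilt - b)
          ≤ w.toVal b * (ρ * w.toVal b) := by exact_mod_cast this
        _ = ρ * (w.toVal b * w.toVal b) := by ring

end Point

end Vale.Agent.P202.Perf
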