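import Vale.Agent.P202.Perf.Approx

/-!
# Rank one points of a `p`-adically complete ring and rational sets given by the tilt

`Point O p ρ` is the space of valuations `v ≤ 1` on `O` with values in `ℝ≥0` and `v p = ρ`, with
the topology of pointwise convergence. It is compact, and the sets cut out by inequalities between
untilts form a basis of neighbourhoods.
-/

namespace Vale.Agent.P202.Perf

open Topology Filter Set
open scoped NNReal

noncomputable section

/-- A rank one point with `|p| = ρ`. -/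
@[ext]
structure Point (O : Type*) [CommRing O] (p : ℕ) (ρ : ℝ≥0) where
  toVal : Valuation O ℝ≥0
  le_one : ∀ x, toVal x ≤ 1
  map_p : toVal (p : O) = ρ

variable {O : Type*} [CommRing O] {p : ℕ} {ρ : ℝ≥0}

namespace Point

instance : TopologicalSpace (Point O p ρ) :=
  TopologicalSpace.induced (fun w => (w.toVal : O → ℝ≥0)) inferInstance

theorem isInducing_coe :
    IsInducing (fun w : Point O p ρ => (w.toVal : O → ℝ≥0)) := ⟨rfl⟩

theorem continuous_eval (f : O) : Continuous fun w : Point O p ρ => w.toVal f :=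
  (continuous_apply f).comp isInducing_coe.continuous

instance : T2Space (Point O p ρ) :=
  .of_injective_continuous (f := fun w : Point O p ρ => (w.toVal : O → ℝ≥0))
    (fun _ _ h => Point.ext (Valuation.ext (congr_fun h))) isInducing_coe.continuous

theorem mem_range_coe_iff (f : O → ℝ≥0) :
    f ∈ Set.range (fun w : Point O p ρ => (w.toVal : O → ℝ≥0)) ↔
      f 0 = 0 ∧ f 1 = 1 ∧ (∀ x y, f (x * y) = f x * f y) ∧
        (∀ x y, f (x + y) ≤ max (f x) (f y)) ∧ f (p : O) = ρ ∧ ∀ x, f x ≤ 1 := by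
  constructor
  · rintro ⟨w, rfl⟩
    exact ⟨map_zero _, map_one _, map_mul _, w.toVal.map_add, w.map_p, w.le_one⟩
  · rintro ⟨h0, h1, hm, ha, hp, hle⟩
    let v : Valuation O ℝ≥0 :=
      { toFun := f
        map_zero' := h0
        map_one' := h1
        map_mul' := hm
        map_add_le_max' := ha }
    exact ⟨⟨v, hle, hp⟩, rfl⟩

theorem isClosed_range_coe :
    IsClosed (Set.range fun w : Point O p ρ => (w.toVal : O → ℝ≥0)) := by
  have hc : ∀ x : O, Continuous fun f : O → ℝ≥0 => f x := fun x => continuous_apply x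
  have h : IsClosed ({f : O → ℝ≥0 | f 0 = 0} ∩ ({f | f 1 = 1} ∩
      ((⋂ x, ⋂ y, {f | f (x * y) = f x * f y}) ∩
      ((⋂ x, ⋂ y, {f | f (x + y) ≤ max (f x) (f y)}) ∩
      ({f | f (p : O) = ρ} ∩ ⋂ x, {f | f x ≤ 1}))))) :=
    (isClosed_eq (hc 0) continuous_const).inter <| (isClosed_eq (hc 1) continuous_const).inter <|
      (isClosed_iInter fun x => isClosed_iInter fun y =>
        isClosed_eq (hc (x * y)) ((hc x).mul (hc y))).inter <|
      (isClosed_iInter fun x => isClosed_iInter fun y =>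
        isClosed_le (hc (x + y)) ((hc x).max (hc y))).inter <|
      (isClosed_eq (hc _) continuous_const).inter <|
      isClosed_iInter fun x => isClosed_le (hc x) continuous_const
  convert! h using 1
  ext f
  simp only [mem_range_coe_iff, mem_inter_iff, mem_iInter]
  rfl

instance : CompactSpace (Point O p ρ) := by
  refine ⟨isInducing_coe.isCompact_iff.2 ?_⟩
  rw [image_univ]
  refine IsCompact.of_isClosed_subset
    (isCompact_univ_pi fun _ : O => isCompact_Icc (a := (0 : ℝ≥0)) (b := 1))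
    isClosed_range_coe ?_
  rintro _ ⟨w, rfl⟩ x _
  exact ⟨zero_le, w.le_one x⟩

/-- The locus where `b` is at least `c`. -/
theorem isCompact_setOf_le (b : O) (c : ℝ≥0) : IsCompact {w : Point O p ρ | c ≤ w.toVal b} :=
  (isClosed_le continuous_const (continuous_eval b)).isCompact

end Point

/-- Strictly between two powers lies a power of `ρ`. -/
theorem exists_pow_between (hρ0 : 0 < ρ) (hρ1 : ρ < 1) {x y : ℝ≥0} (hxy : x < y) (hy : y ≤ 1) :
    ∃ N M : ℕ, 0 < N ∧ x ^ N < ρ ^ M ∧ ρ ^ M < y ^ N := by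
  have hy0 : 0 < y := lt_of_le_of_lt zero_le hxy
  obtain ⟨N, hN⟩ := exists_pow_lt_of_lt_one hρ0 (show x / y < 1 from (div_lt_one hy0).2 hxy)
  obtain ⟨N, hN, hN0⟩ : ∃ N', (x / y) ^ N' < ρ ∧ 0 < N' :=
    ⟨N + 1, lt_of_le_of_lt (pow_le_pow_of_le_one zero_le
      ((div_lt_one hy0).2 hxy).le N.le_succ) hN, N.succ_pos⟩
  have hyN : 0 < y ^ N := pow_pos hy0 N
  have hex : ∃ M, ρ ^ M < y ^ N := exists_pow_lt_of_lt_one hyN hρ1
  classical
  refine ⟨N, Nat.find hex, hN0, ?_, Nat.find_spec hex⟩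
  have hM0 : Nat.find hex ≠ 0 := fun h => by
    have := Nat.find_spec hex
    rw [h, pow_zero] at this
    exact absurd this (pow_le_one₀ zero_le hy).not_gt
  obtain ⟨M, hM⟩ := Nat.exists_eq_succ_of_ne_zero hM0
  have hge : y ^ N ≤ ρ ^ M := not_lt.1 (Nat.find_min hex (by omega))
  rw [hM, pow_succ']
  calc x ^ N = (x / y) ^ N * y ^ N := by rw [div_pow, div_mul_cancel₀ _ hyN.ne']
    _ < ρ * y ^ N := mul_lt_mul_of_pos_right hN hyN
    _ ≤ ρ * ρ ^ M := mul_le_mul_right hge _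

variable [Fact (Nat.Prime p)] [Fact ¬IsUnit (p : O)] [IsAdicComplete (Ideal.span {(p : O)}) O]

/-- The set of points with `|g♯| ≤ |g₀♯|` for all `g` in `G`. -/
def ratSet (g₀ : PreTilt O p) (G : Finset (PreTilt O p)) : Set (Point O p ρ) :=
  {w | ∀ g ∈ G, w.toVal g.untilt ≤ w.toVal g₀.untilt}

/-- A rational set given by the tilt: some power of `π` is among the numerators, so the denominator
vanishes nowhere on it. -/
def IsRational (π : PreTilt O p) (W : Set (Point O p ρ)) : Prop :=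
  ∃ g₀ G, (∃ M : ℕ, π ^ M ∈ G) ∧ W = ratSet g₀ G

theorem isClosed_ratSet (g₀ : PreTilt O p) (G : Finset (PreTilt O p)) :
    IsClosed (ratSet g₀ G : Set (Point O p ρ)) := by
  simp only [ratSet, ofPred_forall]
  exact isClosed_biInter fun g _ =>
    isClosed_le (Point.continuous_eval _) (Point.continuous_eval _)

theorem IsRational.isCompact {π : PreTilt O p} {W : Set (Point O p ρ)} (hW : IsRational π W) :
    IsCompact W := by
  obtain ⟨g₀, G, -, rfl⟩ := hW
  exact (isClosed_ratSet g₀ G).isCompact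

variable {π : PreTilt O p}

theorem val_untilt_pow (hπ : π.untilt = (p : O)) (w : Point O p ρ) (M : ℕ) :
    w.toVal (π ^ M).untilt = ρ ^ M := by rw [map_pow, map_pow, hπ, w.map_p]

/-- The denominator of a rational set is bounded below. -/
theorem exists_pow_le_of_mem (hπ : π.untilt = (p : O)) {g₀ : PreTilt O p}
    {G : Finset (PreTilt O p)} {M : ℕ} (hM : π ^ M ∈ G) {w : Point O p ρ}
    (hw : w ∈ ratSet g₀ G) : ρ ^ M ≤ w.toVal g₀.untilt := by
  simpa only [val_untilt_pow hπ] using hw _ hM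

theorem IsRational.univ (π : PreTilt O p) : IsRational π (Set.univ : Set (Point O p ρ)) :=
  ⟨1, {1}, ⟨0, by simp⟩, by ext w; simp [ratSet]⟩

theorem IsRational.inter (hρ0 : 0 < ρ) (hπ : π.untilt = (p : O)) {W₁ W₂ : Set (Point O p ρ)}
    (h₁ : IsRational π W₁) (h₂ : IsRational π W₂) : IsRational π (W₁ ∩ W₂) := by
  classical
  obtain ⟨a, A, ⟨M, hM⟩, rfl⟩ := h₁
  obtain ⟨b, B, ⟨N, hN⟩, rfl⟩ := h₂
  refine ⟨a * b, Finset.image₂ (· * ·) (insert a A) (insert b B), ⟨M + N, ?_⟩, ?_⟩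
  · rw [pow_add]
    exact Finset.mem_image₂_of_mem (Finset.mem_insert_of_mem hM) (Finset.mem_insert_of_mem hN)
  ext w
  simp only [mem_inter_iff, ratSet, mem_ofPred_eq, Finset.forall_mem_image₂, map_mul]
  constructor
  · rintro ⟨hA, hB⟩ g hg h hh
    refine mul_le_mul' ?_ ?_
    · rcases Finset.mem_insert.1 hg with rfl | hg
      exacts [le_rfl, hA g hg]
    · rcases Finset.mem_insert.1 hh with rfl | hh
      exacts [le_rfl, hB h hh]
  · intro h
    have hlow : ρ ^ M * ρ ^ N ≤ w.toVal a.untilt * w.toVal b.untilt := by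
      simpa only [val_untilt_pow hπ] using
        h (π ^ M) (Finset.mem_insert_of_mem hM) (π ^ N) (Finset.mem_insert_of_mem hN)
    have hpos : 0 < w.toVal a.untilt * w.toVal b.untilt :=
      lt_of_lt_of_le (mul_pos (pow_pos hρ0 M) (pow_pos hρ0 N)) hlow
    exact ⟨fun g hg => le_of_mul_le_mul_right
        (h g (Finset.mem_insert_of_mem hg) b (Finset.mem_insert_self _ _))
        (pos_of_mul_pos_right hpos zero_le),
      fun g hg => le_of_mul_le_mul_left
        (h a (Finset.mem_insert_self _ _) g (Finset.mem_insert_of_mem hg))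
        (pos_of_mul_pos_left hpos zero_le)⟩

/-- An inequality `|f| ≤ ρ ^ M` or `ρ ^ M ≤ |f|` is also one on an untilt. -/
theorem exists_untilt_iff (hρ0 : 0 < ρ) (hρ1 : ρ < 1)
    (hF : Function.Surjective (frobenius (ModP O p) p)) (hπ : π.untilt = (p : O)) (f : O) (M : ℕ) :
    ∃ g : PreTilt O p, ∀ w : Point O p ρ, (w.toVal g.untilt ≤ ρ ^ M ↔ w.toVal f ≤ ρ ^ M) ∧
      (ρ ^ M ≤ w.toVal g.untilt ↔ ρ ^ M ≤ w.toVal f) := by
  obtain ⟨g, hg⟩ := exists_untilt_approx' hF π hπ (M + 1) f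
  refine ⟨g, fun w => ?_⟩
  obtain ⟨-, h2, -⟩ := hg ℝ≥0 w.toVal w.le_one (by rw [w.map_p]; exact hρ1)
  rw [w.map_p] at h2
  have hlt : ρ ^ (M + 1) < ρ ^ M := pow_lt_pow_right_of_lt_one₀ hρ0 hρ1 M.lt_succ_self
  constructor
  · have a := max_le_iff (a := w.toVal g.untilt) (b := ρ ^ (M + 1)) (c := ρ ^ M)
    have b := max_le_iff (a := w.toVal f) (b := ρ ^ (M + 1)) (c := ρ ^ M)
    rw [h2] at b
    simp only [hlt.le, and_true] at a b
    exact a.symm.trans b
  · have a := le_max_iff (a := ρ ^ M) (b := w.toVal g.untilt) (c := ρ ^ (M + 1))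
    have b := le_max_iff (a := ρ ^ M) (b := w.toVal f) (c := ρ ^ (M + 1))
    rw [h2] at b
    simp only [hlt.not_ge, or_false] at a b
    exact a.symm.trans b

/-- The rational sets containing a point in their interior are a basis of neighbourhoods. -/
theorem exists_rational_nhd (hρ0 : 0 < ρ) (hρ1 : ρ < 1)
    (hF : Function.Surjective (frobenius (ModP O p) p)) (hπ : π.untilt = (p : O))
    {w : Point O p ρ} {U : Set (Point O p ρ)} (hU : U ∈ 𝓝 w) :
    ∃ W, IsRational π W ∧ W ∈ 𝓝 w ∧ W ⊆ U := by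
  classical
  have hlow : ∀ (f : O) (b : ℝ≥0), w.toVal f < b →
      ∃ W, IsRational π W ∧ W ∈ 𝓝 w ∧ ∀ x ∈ W, x.toVal f < b := by
    intro f b hb
    by_cases hb1 : 1 < b
    · exact ⟨univ, .univ π, univ_mem, fun x _ => (x.le_one f).trans_lt hb1⟩
    obtain ⟨N, M, hN, hlo, hhi⟩ := exists_pow_between hρ0 hρ1 hb (not_lt.1 hb1)
    obtain ⟨g, hg⟩ := exists_untilt_iff hρ0 hρ1 hF hπ (f ^ N) M
    refine ⟨ratSet (π ^ M) {g, π ^ M}, ⟨_, _, ⟨M, by simp⟩, rfl⟩, ?_, ?_⟩
    · rw [← map_pow] at hlo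
      filter_upwards [(Point.continuous_eval (f ^ N)).continuousAt.eventually_lt
        continuousAt_const hlo] with x hx
      simpa [ratSet, hπ, x.map_p] using (hg x).1.2 hx.le
    · intro x hx
      have h := hx g (by simp)
      rw [val_untilt_pow hπ, (hg x).1, map_pow] at h
      exact lt_of_pow_lt_pow_left₀ N zero_le (h.trans_lt hhi)
  have hhigh : ∀ (f : O) (a : ℝ≥0), a < w.toVal f →
      ∃ W, IsRational π W ∧ W ∈ 𝓝 w ∧ ∀ x ∈ W, a < x.toVal f := by
    intro f a ha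
    obtain ⟨N, M, hN, hlo, hhi⟩ := exists_pow_between hρ0 hρ1 ha (w.le_one f)
    obtain ⟨g, hg⟩ := exists_untilt_iff hρ0 hρ1 hF hπ (f ^ N) M
    refine ⟨ratSet g {π ^ M}, ⟨_, _, ⟨M, by simp⟩, rfl⟩, ?_, ?_⟩
    · rw [← map_pow] at hhi
      filter_upwards [continuousAt_const.eventually_lt
        (Point.continuous_eval (f ^ N)).continuousAt hhi] with x hx
      simpa [ratSet, hπ, x.map_p] using (hg x).2.2 hx.le
    · intro x hx
      have h := hx (π ^ M) (by simp)
      rw [val_untilt_pow hπ, (hg x).2, map_pow] at h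
      exact lt_of_pow_lt_pow_left₀ N zero_le (hlo.trans_le h)
  have hone : ∀ (f : O) (V : Set ℝ≥0), IsOpen V → w.toVal f ∈ V →
      ∃ W, IsRational π W ∧ W ∈ 𝓝 w ∧ ∀ x ∈ W, x.toVal f ∈ V := by
    intro f V hV hfV
    obtain ⟨ε, hε, hball⟩ := Metric.isOpen_iff.1 hV _ hfV
    have hε' : 0 < ε.toNNReal := Real.toNNReal_pos.2 hε
    obtain ⟨W₁, hr₁, hn₁, h₁⟩ := hlow f (w.toVal f + ε.toNNReal) (lt_add_of_pos_right _ hε')
    rcases lt_or_ge (0 : ℝ≥0) (w.toVal f) with hpos | hzero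
    · obtain ⟨W₂, hr₂, hn₂, h₂⟩ := hhigh f (w.toVal f - ε.toNNReal) (tsub_lt_self hpos hε')
      refine ⟨W₁ ∩ W₂, hr₁.inter hρ0 hπ hr₂, inter_mem hn₁ hn₂, fun x hx => hball ?_⟩
      have hu := h₁ x hx.1
      have hl := h₂ x hx.2
      rw [← NNReal.coe_lt_coe, NNReal.coe_add, Real.coe_toNNReal _ hε.le] at hu
      rw [← NNReal.coe_lt_coe, NNReal.coe_sub_def, Real.coe_toNNReal _ hε.le, max_lt_iff] at hl
      rw [Metric.mem_ball, NNReal.dist_eq, abs_lt]
      constructor <;> linarith [hl.1]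
    · refine ⟨W₁, hr₁, hn₁, fun x hx => hball ?_⟩
      have hu := h₁ x hx
      rw [← NNReal.coe_lt_coe, NNReal.coe_add, Real.coe_toNNReal _ hε.le] at hu
      rw [Metric.mem_ball, NNReal.dist_eq, le_antisymm hzero zero_le, abs_lt]
      rw [le_antisymm hzero zero_le] at hu
      constructor <;> simp only [NNReal.coe_zero] at * <;>
        linarith [(x.toVal f).coe_nonneg]
  rw [nhds_induced, mem_comap] at hU
  obtain ⟨S, hS, hSU⟩ := hU
  obtain ⟨S', hS'S, hS'o, hwS'⟩ := mem_nhds_iff.1 hS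
  obtain ⟨I, u, hu, hIu⟩ := isOpen_pi_iff.1 hS'o _ hwS'
  suffices ∀ J : Finset O, J ⊆ I →
      ∃ W, IsRational π W ∧ W ∈ 𝓝 w ∧ ∀ x ∈ W, ∀ f ∈ J, x.toVal f ∈ u f by
    obtain ⟨W, hr, hn, hW⟩ := this I subset_rfl
    exact ⟨W, hr, hn, fun x hx => hSU (hS'S (hIu fun f hf => hW x hx f hf))⟩
  intro J
  induction J using Finset.induction with
  | empty => exact fun _ => ⟨univ, .univ π, univ_mem, by simp⟩
  | insert f J _ ih =>
    intro hJ
    obtain ⟨hf, hJ⟩ := Finset.insert_subset_iff.1 hJ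
    obtain ⟨W, hr, hn, hW⟩ := ih hJ
    obtain ⟨W', hr', hn', hW'⟩ := hone f (u f) (hu f hf).1 (hu f hf).2
    refine ⟨W' ∩ W, hr'.inter hρ0 hπ hr, inter_mem hn' hn, fun x hx g hg => ?_⟩
    rcases Finset.mem_insert.1 hg with rfl | hg
    exacts [hW' x hx.1, hW x hx.2 g hg]

/-- A property which holds near every point of a compact set and passes to subsets holds on
finitely many rational sets covering it. -/
theorem exists_rational_cover (hρ0 : 0 < ρ) (hρ1 : ρ < 1)
    (hF : Function.Surjective (frobenius (ModP O p) p)) (hπ : π.untilt = (p : O))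
    {K : Set (Point O p ρ)} (hK : IsCompact K) (P : Set (Point O p ρ) → Prop)
    (hmono : ∀ ⦃A B⦄, A ⊆ B → P B → P A) (hloc : ∀ w ∈ K, ∃ U ∈ 𝓝 w, P U) :
    ∃ n : ℕ, ∃ W : Fin n → Set (Point O p ρ),
      (∀ j, IsRational π (W j) ∧ P (W j)) ∧ K ⊆ ⋃ j, W j := by
  classical
  have : ∀ w ∈ K, ∃ W, IsRational π W ∧ W ∈ 𝓝 w ∧ P W := fun w hw => by
    obtain ⟨U, hU, hP⟩ := hloc w hw
    obtain ⟨W, hr, hn, hWU⟩ := exists_rational_nhd hρ0 hρ1 hF hπ hU
    exact ⟨W, hr, hn, hmono hWU hP⟩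
  choose! W hr hn hP using this
  obtain ⟨t, htK, hcov⟩ := hK.elim_nhds_subcover W hn
  refine ⟨t.card, fun j => W (t.equivFin.symm j).1,
    fun j => ⟨hr _ (htK _ (t.equivFin.symm j).2), hP _ (htK _ (t.equivFin.symm j).2)⟩, ?_⟩
  intro w hw
  obtain ⟨x, hx, hwx⟩ := mem_iUnion₂.1 (hcov hw)
  exact mem_iUnion.2 ⟨t.equivFin ⟨x, hx⟩, by simpa using hwx⟩

end

end Vale.Agent.P202.Perf
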