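import Vale.Agent.P202.Perf.Tower

/-!
# The weight of the perfectoid base as a valuation

`wt f = (1/p) ^ (ord f / p ^ n)` on level `n`; it extends to the union and to its completion and has
`wt p = wt T_i ^ (p ^ n) = 1 / p`.
-/

namespace Vale.Agent.P202.Perf.Base

open MvPowerSeries Filter Topology
open scoped NNReal

set_option linter.unusedSectionVars false

variable {p : ℕ} [hp : Fact (Nat.Prime p)] {k : Type*} [Field k] [CharP k p] [PerfectRing k p]
variable {σ : Type*} [Finite σ]

variable (p) in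
/-- The weight of `p`. -/
noncomputable def rho : ℝ≥0 := ((p : ℝ≥0))⁻¹

variable (p) in
/-- The weight of the uniformiser at level `n`. -/
noncomputable def rhoN (n : ℕ) : ℝ≥0 := rho p ^ ((p ^ n : ℕ) : ℝ)⁻¹

theorem rho_pos : 0 < rho p := inv_pos.2 (by exact_mod_cast hp.out.pos)

theorem rho_lt_one : rho p < 1 := inv_lt_one_of_one_lt₀ (by exact_mod_cast hp.out.one_lt)

theorem rhoN_le_one (n : ℕ) : rhoN p n ≤ 1 :=
  NNReal.rpow_le_one rho_lt_one.le (inv_nonneg.2 (Nat.cast_nonneg _))

theorem rhoN_pow (n : ℕ) : rhoN p n ^ p ^ n = rho p :=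
  NNReal.rpow_inv_natCast_pow _ (pow_ne_zero' n)

theorem rhoN_trans {n m : ℕ} (h : n ≤ m) : rhoN p m ^ p ^ (m - n) = rhoN p n := by
  refine (pow_left_inj₀ zero_le zero_le (pow_ne_zero' (p := p) n)).1 ?_
  rw [← pow_mul, ← pow_add, Nat.sub_add_cancel h, rhoN_pow, rhoN_pow]

/-- Exponent to size. -/
noncomputable def size (n : ℕ) : ℕ∞ → ℝ≥0 := fun e => e.recTopCoe 0 fun j => rhoN p n ^ j

theorem size_add (n : ℕ) (a b : ℕ∞) : size (p := p) n (a + b) = size (p := p) n a * size (p := p) n b := by
  induction a using ENat.recTopCoe with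
  | top => simp [size]
  | coe a =>
    induction b using ENat.recTopCoe with
    | top => simp [size]
    | coe b =>
      rw [← Nat.cast_add]
      exact pow_add _ _ _

theorem size_antitone (n : ℕ) : Antitone (size (p := p) n) := by
  intro a b hab
  induction b using ENat.recTopCoe with
  | top => exact zero_le
  | coe b =>
    lift a to ℕ using ne_top_of_le_ne_top (ENat.natCast_ne_top _) hab
    exact pow_le_pow_of_le_one zero_le (rhoN_le_one n) (by exact_mod_cast hab)

/-- The weight at level `n`. -/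
noncomputable def wt (n : ℕ) (f : An p k σ n) : ℝ≥0 := size (p := p) n (ord n f)

theorem wt_mul (n : ℕ) (f g : An p k σ n) : wt n (f * g) = wt n f * wt n g := by
  rw [wt, ord_mul, size_add]
  rfl

theorem wt_zero (n : ℕ) : wt n (0 : An p k σ n) = 0 := by
  rw [wt, ord_eq_top_iff.2 rfl]
  rfl

theorem wt_one (n : ℕ) : wt n (1 : An p k σ n) = 1 := by
  rw [wt, ord, map_one, emultiplicity_of_one_right (prime_C_varpi n).not_isUnit]
  exact pow_zero _

theorem wt_add_le (n : ℕ) (f g : An p k σ n) : wt n (f + g) ≤ max (wt n f) (wt n g) := by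
  refine (size_antitone n (min_le_ord_add n f g)).trans ?_
  rcases le_total (ord n f) (ord n g) with h | h
  · rw [min_eq_left h]; exact le_max_left _ _
  · rw [min_eq_right h]; exact le_max_right _ _

theorem wt_tr {n m : ℕ} (h : n ≤ m) (f : An p k σ n) : wt m (tr p k σ h f) = wt n f := by
  rw [wt, wt, ord_tr]
  generalize ord n f = e
  induction e using ENat.recTopCoe with
  | top => rw [ENat.mul_top (by exact_mod_cast pow_ne_zero' _)]; rfl
  | coe e =>
    rw [← Nat.cast_mul]
    show rhoN p m ^ (p ^ (m - n) * e) = rhoN p n ^ e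
    rw [pow_mul, rhoN_trans h]

theorem wt_eq_zero {n : ℕ} {f : An p k σ n} : wt n f = 0 ↔ f = 0 := by
  refine ⟨fun h => ?_, fun h => by rw [h, wt_zero]⟩
  rw [← ord_eq_top_iff]
  rw [wt] at h
  generalize ord n f = e at h ⊢
  induction e using ENat.recTopCoe with
  | top => rfl
  | coe e =>
    exfalso
    refine (pow_pos ?_ e).ne' h
    exact NNReal.rpow_pos rho_pos

variable (p k σ) in
/-- The weight on the union of the levels. -/
noncomputable def wcol : Valuation (Acol p k σ) ℝ≥0 where
  toFun := DirectLimit.lift (trf p k σ) (fun n f => wt n f) fun _ _ h x => (wt_tr h x).symm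
  map_zero' := by
    rw [DirectLimit.zero_def 0]
    exact wt_zero 0
  map_one' := by
    rw [DirectLimit.one_def 0]
    exact wt_one 0
  map_mul' := DirectLimit.induction₂ _ fun n f g => by
    rw [DirectLimit.mul_def]
    exact wt_mul n f g
  map_add_le_max' := DirectLimit.induction₂ _ fun n f g => by
    rw [DirectLimit.add_def]
    exact wt_add_le n f g

theorem wcol_incl (n : ℕ) (f : An p k σ n) : wcol p k σ (incl p k σ n f) = wt n f := rfl

theorem wcol_le_one (x : Acol p k σ) : wcol p k σ x ≤ 1 := by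
  obtain ⟨n, f, rfl⟩ := exists_incl x
  rw [wcol_incl, wt]
  calc size (p := p) n (ord n f) ≤ size (p := p) n 0 := size_antitone n zero_le
    _ = 1 := pow_zero _

theorem wt_p (n : ℕ) : wt n (p : An p k σ n) = rho p := by
  rw [wt, ord_p]
  exact rhoN_pow n

theorem wt_X (n : ℕ) (i : σ) : wt n (X i : An p k σ n) = rhoN p n := by
  rw [wt, ord_X]
  exact pow_one _

theorem wt_C_varpi (n : ℕ) : wt n (C (varpi p k n) : An p k σ n) = rhoN p n := by
  rw [wt, ord_C_varpi]
  exact pow_one _

theorem wcol_p : wcol p k σ (p : Acol p k σ) = rho p := by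
  rw [← map_natCast (incl p k σ 0), wcol_incl, wt_p]

/-- Elements of the base are approximated by the union modulo every power of `p`. -/
theorem exists_col_sub (x : Aoo p k σ) (j : ℕ) :
    ∃ a : Acol p k σ, (p : Aoo p k σ) ^ j ∣ x - algebraMap (Acol p k σ) (Aoo p k σ) a := by
  induction j with
  | zero => exact ⟨0, by rw [pow_zero]; exact one_dvd _⟩
  | succ j ih =>
    obtain ⟨a, y, hy⟩ := ih
    obtain ⟨n, f, z, hz⟩ := exists_inclC_sub y
    refine ⟨a + (p : Acol p k σ) ^ j * incl p k σ n f, z, ?_⟩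
    rw [inclC, RingHom.comp_apply] at hz
    rw [map_add, map_mul, map_pow, map_natCast, pow_succ]
    linear_combination hy + (p : Aoo p k σ) ^ j * hz

theorem dvd_of_dvd_algebraMap {a : Acol p k σ} {j : ℕ}
    (h : (p : Aoo p k σ) ^ j ∣ algebraMap (Acol p k σ) (Aoo p k σ) a) :
    (p : Acol p k σ) ^ j ∣ a := by
  obtain ⟨y, hy⟩ := h
  have := congrArg (AdicCompletion.evalₐ (Ideal.span {(p : Acol p k σ)}) j) hy
  rw [AlgHom.commutes, map_mul, map_pow, map_natCast,
    ← map_natCast (Ideal.Quotient.mk (Ideal.span {(p : Acol p k σ)} ^ j)), ← map_pow,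
    (Ideal.Quotient.eq_zero_iff_mem.2 (Ideal.pow_mem_pow (Ideal.mem_span_singleton_self _) j)),
    zero_mul, Ideal.Quotient.algebraMap_eq, Ideal.Quotient.eq_zero_iff_mem,
    Ideal.span_singleton_pow, Ideal.mem_span_singleton] at this
  exact this

/-- A chosen approximation modulo `p ^ j`. -/
noncomputable def approx (x : Aoo p k σ) (j : ℕ) : Acol p k σ := (exists_col_sub x j).choose

/-- The weight truncated at `p ^ j`. -/
noncomputable def wTrunc (j : ℕ) (x : Aoo p k σ) : ℝ≥0 :=
  max (wcol p k σ (approx x j)) (rho p ^ j)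

theorem wTrunc_eq {x : Aoo p k σ} {j : ℕ} {a : Acol p k σ}
    (h : (p : Aoo p k σ) ^ j ∣ x - algebraMap (Acol p k σ) (Aoo p k σ) a) :
    wTrunc j x = max (wcol p k σ a) (rho p ^ j) := by
  have key : ∀ a b : Acol p k σ, (p : Acol p k σ) ^ j ∣ a - b →
      max (wcol p k σ a) (rho p ^ j) ≤ max (wcol p k σ b) (rho p ^ j) := by
    intro a b hd
    have hsmall : wcol p k σ (a - b) ≤ rho p ^ j := by
      refine (val_le_of_dvd _ wcol_le_one hd).trans ?_
      rw [map_pow, wcol_p]
    refine max_le ?_ (le_max_right _ _)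
    rw [show a = b + (a - b) by ring]
    exact (Valuation.map_add _ _ _).trans (max_le_max le_rfl hsmall)
  have hd : (p : Acol p k σ) ^ j ∣ approx x j - a := by
    refine dvd_of_dvd_algebraMap ?_
    rw [map_sub, show algebraMap (Acol p k σ) (Aoo p k σ) (approx x j) - algebraMap _ _ a
      = (x - algebraMap _ _ a) - (x - algebraMap _ _ (approx x j)) by ring]
    exact dvd_sub h (exists_col_sub x j).choose_spec
  exact le_antisymm (key _ _ hd) (key _ _ (by rw [← neg_sub, dvd_neg]; exact hd))

theorem wTrunc_succ_eq (x : Aoo p k σ) {j i : ℕ} (h : j ≤ i) :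
    max (wTrunc i x) (rho p ^ j) = wTrunc j x := by
  have hd : (p : Aoo p k σ) ^ j ∣ x - algebraMap (Acol p k σ) (Aoo p k σ) (approx x i) :=
    (pow_dvd_pow _ h).trans (exists_col_sub x i).choose_spec
  rw [wTrunc_eq hd, wTrunc, max_assoc,
    max_eq_right (pow_le_pow_of_le_one zero_le rho_lt_one.le h)]

theorem wTrunc_antitone (x : Aoo p k σ) : Antitone fun j => wTrunc j x := fun j i h => by
  show wTrunc i x ≤ wTrunc j x
  rw [← wTrunc_succ_eq x h]
  exact le_max_left _ _

/-- The weight on the base. -/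
noncomputable def winf (x : Aoo p k σ) : ℝ≥0 := ⨅ j, wTrunc j x

theorem tendsto_wTrunc (x : Aoo p k σ) : Tendsto (fun j => wTrunc j x) atTop (𝓝 (winf x)) :=
  tendsto_atTop_ciInf (wTrunc_antitone x) (OrderBot.bddBelow _)

theorem tendsto_rho_pow : Tendsto (fun j : ℕ => rho p ^ j) atTop (𝓝 0) :=
  NNReal.tendsto_pow_atTop_nhds_zero_of_lt_one rho_lt_one

theorem winf_algebraMap (a : Acol p k σ) :
    winf (algebraMap (Acol p k σ) (Aoo p k σ) a) = wcol p k σ a := by
  refine tendsto_nhds_unique (tendsto_wTrunc _) ?_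
  simp_rw [fun j => wTrunc_eq (x := algebraMap (Acol p k σ) (Aoo p k σ) a) (j := j) (a := a)
    (by rw [sub_self]; exact dvd_zero _)]
  have := (tendsto_const_nhds (x := wcol p k σ a)).max (tendsto_rho_pow (p := p))
  rwa [max_eq_left zero_le] at this

theorem wTrunc_mul (x y : Aoo p k σ) (j : ℕ) :
    wTrunc j (x * y) = max (wTrunc j x * wTrunc j y) (rho p ^ j) := by
  have hx := (exists_col_sub x j).choose_spec
  have hy := (exists_col_sub y j).choose_spec
  have h : (p : Aoo p k σ) ^ j ∣
      x * y - algebraMap (Acol p k σ) (Aoo p k σ) (approx x j * approx y j) := by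
    rw [map_mul, show x * y - algebraMap _ _ (approx x j) * algebraMap _ _ (approx y j)
      = x * (y - algebraMap (Acol p k σ) _ (approx y j))
        + algebraMap (Acol p k σ) _ (approx y j) * (x - algebraMap _ _ (approx x j)) by ring]
    exact dvd_add (dvd_mul_of_dvd_right hy _) (dvd_mul_of_dvd_right hx _)
  rw [wTrunc_eq h, wTrunc, wTrunc, map_mul]
  set a := wcol p k σ (approx x j)
  set b := wcol p k σ (approx y j)
  have hr : rho p ^ j ≤ 1 := pow_le_one₀ zero_le rho_lt_one.le
  apply le_antisymm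
  · exact max_le_max (mul_le_mul' (le_max_left _ _) (le_max_left _ _)) le_rfl
  · refine max_le ?_ (le_max_right _ _)
    rw [max_mul, mul_max, mul_max]
    refine max_le (max_le_max le_rfl (mul_le_of_le_one_left' (wcol_le_one _))) ?_
    exact max_le ((mul_le_of_le_one_right' (wcol_le_one _)).trans (le_max_right _ _))
      ((mul_le_of_le_one_right' hr).trans (le_max_right _ _))

theorem wTrunc_add (x y : Aoo p k σ) (j : ℕ) :
    wTrunc j (x + y) ≤ max (wTrunc j x) (wTrunc j y) := by
  have h : (p : Aoo p k σ) ^ j ∣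
      x + y - algebraMap (Acol p k σ) (Aoo p k σ) (approx x j + approx y j) := by
    rw [map_add, add_sub_add_comm]
    exact dvd_add (exists_col_sub x j).choose_spec (exists_col_sub y j).choose_spec
  rw [wTrunc_eq h, wTrunc, wTrunc]
  refine max_le ((Valuation.map_add _ _ _).trans ?_) ((le_max_right _ _).trans (le_max_left _ _))
  exact max_le_max (le_max_left _ _) (le_max_left _ _)

variable (p k σ) in
/-- The weight on the base, as a valuation. -/
noncomputable def weight : Valuation (Aoo p k σ) ℝ≥0 where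
  toFun := winf
  map_zero' := by rw [← map_zero (algebraMap (Acol p k σ) _), winf_algebraMap, map_zero]
  map_one' := by rw [← map_one (algebraMap (Acol p k σ) _), winf_algebraMap, map_one]
  map_mul' x y := by
    refine tendsto_nhds_unique (tendsto_wTrunc _) ?_
    simp_rw [wTrunc_mul]
    have := ((tendsto_wTrunc x).mul (tendsto_wTrunc y)).max (tendsto_rho_pow (p := p))
    rwa [max_eq_left zero_le] at this
  map_add_le_max' x y :=
    le_of_tendsto_of_tendsto' (tendsto_wTrunc _) ((tendsto_wTrunc x).max (tendsto_wTrunc y))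
      (wTrunc_add x y)

theorem weight_inclC (n : ℕ) (f : An p k σ n) : weight p k σ (inclC p k σ n f) = wt n f := by
  show winf _ = _
  rw [inclC, RingHom.comp_apply, winf_algebraMap, wcol_incl]

theorem weight_le_one (x : Aoo p k σ) : weight p k σ x ≤ 1 :=
  le_of_tendsto' (tendsto_wTrunc x) fun _ =>
    max_le (wcol_le_one _) (pow_le_one₀ zero_le rho_lt_one.le)

theorem weight_p : weight p k σ (p : Aoo p k σ) = rho p := by
  rw [← map_natCast (inclC p k σ 0), weight_inclC, wt_p]

theorem weight_root (n : ℕ) : weight p k σ (root n) = rhoN p n := by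
  rw [root, weight_inclC, wt_C_varpi]

theorem weight_X (n : ℕ) (i : σ) : weight p k σ (inclC p k σ n (X i)) = rhoN p n := by
  rw [weight_inclC, wt_X]

/-- Up to `p ^ j` the weight is that of any approximation. -/
theorem max_weight_eq {x : Aoo p k σ} {j : ℕ} {a : Acol p k σ}
    (h : (p : Aoo p k σ) ^ j ∣ x - algebraMap (Acol p k σ) (Aoo p k σ) a) :
    max (weight p k σ x) (rho p ^ j) = max (wcol p k σ a) (rho p ^ j) := by
  rw [← wTrunc_eq h]
  refine tendsto_nhds_unique ((tendsto_wTrunc x).max tendsto_const_nhds) ?_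
  exact tendsto_const_nhds.congr' (eventually_atTop.2 ⟨j, fun i hi => (wTrunc_succ_eq x hi).symm⟩)

end Vale.Agent.P202.Perf.Base
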